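import Vale.Agent.P359.Defs

/-!
# P359: averaging over the spin symmetry without groups

`Spin.IsAvg` is the trace-orthogonal projection onto the commutant of `E`, `Eᵀ`, `Z`. This
commutant is an algebra closed under transposition, so the projection is positive.
-/

namespace Vale.Agent.P359

open Finset Matrix
open scoped Kronecker

variable {ι κ : Type*} [Fintype ι] [Fintype κ] [DecidableEq ι] [DecidableEq κ]

namespace Spin

variable {s : Spin ι} {t : Spin κ} {X X' Y Y' T T' : Matrix ι ι ℝ}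

section Invariant
omit [DecidableEq ι]

lemma Invariant.commute_E (h : s.Invariant T) : Commute T s.E := h.1

lemma Invariant.commute_Et (h : s.Invariant T) : Commute T s.Eᵀ := h.2.1

lemma Invariant.commute_Z (h : s.Invariant T) : Commute T s.Z := h.2.2

lemma invariant_zero : s.Invariant 0 := by simp [Invariant]

lemma Invariant.add (h : s.Invariant T) (h' : s.Invariant T') : s.Invariant (T + T') :=
  ⟨h.commute_E.add_left h'.commute_E, h.commute_Et.add_left h'.commute_Et,
    h.commute_Z.add_left h'.commute_Z⟩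

lemma Invariant.smul (h : s.Invariant T) (c : ℝ) : s.Invariant (c • T) :=
  ⟨h.commute_E.smul_left c, h.commute_Et.smul_left c, h.commute_Z.smul_left c⟩

lemma Invariant.neg (h : s.Invariant T) : s.Invariant (-T) :=
  ⟨h.commute_E.neg_left, h.commute_Et.neg_left, h.commute_Z.neg_left⟩

lemma Invariant.sub (h : s.Invariant T) (h' : s.Invariant T') : s.Invariant (T - T') :=
  sub_eq_add_neg T T' ▸ h.add h'.neg

lemma Invariant.mul (h : s.Invariant T) (h' : s.Invariant T') : s.Invariant (T * T') :=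
  ⟨h.commute_E.mul_left h'.commute_E, h.commute_Et.mul_left h'.commute_Et,
    h.commute_Z.mul_left h'.commute_Z⟩

lemma invariant_sum {β : Type*} (S : Finset β) {f : β → Matrix ι ι ℝ}
    (h : ∀ b ∈ S, s.Invariant (f b)) : s.Invariant (∑ b ∈ S, f b) := by
  classical
  induction S using Finset.induction with
  | empty => simpa using invariant_zero
  | insert a S ha ih =>
    rw [Finset.sum_insert ha]
    exact (h a (Finset.mem_insert_self a S)).add
      (ih fun b hb => h b (Finset.mem_insert_of_mem hb))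

lemma Invariant.transpose (hZ : s.Z.IsSymm) (h : s.Invariant T) : s.Invariant Tᵀ := by
  refine ⟨?_, ?_, ?_⟩
  · have := congrArg Matrix.transpose h.2.1
    simpa [Matrix.transpose_mul] using this.symm
  · have := congrArg Matrix.transpose h.1
    simpa [Matrix.transpose_mul] using this.symm
  · have := congrArg Matrix.transpose h.2.2
    simpa [Matrix.transpose_mul, hZ.eq] using this.symm

end Invariant

lemma invariant_one : s.Invariant 1 := by simp [Invariant]

/-- The commutant, as a subspace. -/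
def invSpace (s : Spin ι) : Submodule ℝ (Matrix ι ι ℝ) where
  carrier := {T | s.Invariant T}
  add_mem' := fun h h' => h.add h'
  zero_mem' := invariant_zero
  smul_mem' := fun c _ h => h.smul c

omit [DecidableEq ι] in
lemma trace_transpose_mul_self_eq_zero (h : (Xᵀ * X).trace = 0) : X = 0 := by
  rw [← Matrix.trace_conjTranspose_mul_self_eq_zero_iff]
  rwa [Matrix.conjTranspose_eq_transpose_of_trivial]

omit [DecidableEq ι] in
theorem IsAvg.unique (h : s.IsAvg X Y) (h' : s.IsAvg X Y') : Y = Y' := by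
  refine sub_eq_zero.1 (trace_transpose_mul_self_eq_zero ?_)
  rw [Matrix.mul_sub, Matrix.trace_sub, h.2 _ (h.1.sub h'.1), h'.2 _ (h.1.sub h'.1), sub_self]

/-- The average exists. -/
theorem exists_avg (s : Spin ι) (X : Matrix ι ι ℝ) : ∃ Y, s.IsAvg X Y := by
  let Φ : invSpace s →ₗ[ℝ] Module.Dual ℝ (invSpace s) :=
    LinearMap.mk₂ ℝ (fun Y T => ((T : Matrix ι ι ℝ)ᵀ * (Y : Matrix ι ι ℝ)).trace)
      (fun Y Y' T => by simp [Matrix.mul_add])
      (fun c Y T => by simp)
      (fun Y T T' => by simp [Matrix.add_mul])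
      (fun c Y T => by simp)
  have hinj : Function.Injective Φ := by
    refine (injective_iff_map_eq_zero Φ).2 fun Y hY => Subtype.ext ?_
    exact trace_transpose_mul_self_eq_zero (LinearMap.congr_fun hY Y)
  obtain ⟨Y, hY⟩ := (LinearMap.injective_iff_surjective_of_finrank_eq_finrank
    Subspace.dual_finrank_eq.symm).1 hinj
    { toFun := fun T => ((T : Matrix ι ι ℝ)ᵀ * X).trace
      map_add' := fun T T' => by simp [Matrix.add_mul]
      map_smul' := fun c T => by simp }
  exact ⟨Y, Y.2, fun T hT => LinearMap.congr_fun hY ⟨T, hT⟩⟩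

omit [DecidableEq ι] in
theorem isAvg_self (h : s.Invariant X) : s.IsAvg X X := ⟨h, fun _ _ => rfl⟩

omit [DecidableEq ι] in
theorem IsAvg.add (h : s.IsAvg X Y) (h' : s.IsAvg X' Y') : s.IsAvg (X + X') (Y + Y') :=
  ⟨h.1.add h'.1, fun T hT => by simp [Matrix.mul_add, h.2 T hT, h'.2 T hT]⟩

omit [DecidableEq ι] in
theorem IsAvg.smul (h : s.IsAvg X Y) (c : ℝ) : s.IsAvg (c • X) (c • Y) :=
  ⟨h.1.smul c, fun T hT => by simp [h.2 T hT]⟩

omit [DecidableEq ι] in
theorem IsAvg.neg (h : s.IsAvg X Y) : s.IsAvg (-X) (-Y) :=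
  ⟨h.1.neg, fun T hT => by simp [h.2 T hT]⟩

omit [DecidableEq ι] in
theorem IsAvg.sub (h : s.IsAvg X Y) (h' : s.IsAvg X' Y') : s.IsAvg (X - X') (Y - Y') :=
  ⟨h.1.sub h'.1, fun T hT => by simp [Matrix.mul_sub, h.2 T hT, h'.2 T hT]⟩

omit [DecidableEq ι] in
theorem isAvg_sum {β : Type*} (S : Finset β) {f g : β → Matrix ι ι ℝ}
    (h : ∀ b ∈ S, s.IsAvg (f b) (g b)) : s.IsAvg (∑ b ∈ S, f b) (∑ b ∈ S, g b) :=
  ⟨invariant_sum S fun b hb => (h b hb).1, fun T hT => by
    simp only [Matrix.mul_sum, Matrix.trace_sum]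
    exact Finset.sum_congr rfl fun b hb => (h b hb).2 T hT⟩

omit [DecidableEq ι] in
theorem IsAvg.transpose (hZ : s.Z.IsSymm) (h : s.IsAvg X Y) : s.IsAvg Xᵀ Yᵀ := by
  refine ⟨h.1.transpose hZ, fun T hT => ?_⟩
  rw [← Matrix.trace_transpose (Tᵀ * Yᵀ), ← Matrix.trace_transpose (Tᵀ * Xᵀ)]
  simp only [Matrix.transpose_mul, Matrix.transpose_transpose]
  rw [Matrix.trace_mul_comm Y T, Matrix.trace_mul_comm X T]
  simpa using h.2 Tᵀ (hT.transpose hZ)

omit [DecidableEq ι] in
theorem IsAvg.isSymm (hZ : s.Z.IsSymm) (hX : X.IsSymm) (h : s.IsAvg X Y) : Y.IsSymm := by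
  have h' := h.transpose hZ
  rw [hX.eq] at h'
  exact (h.unique h').symm

/-- The average of a positive semidefinite matrix is positive semidefinite. -/
theorem IsAvg.posSemidef (hZ : s.Z.IsSymm) (hX : X.PosSemidef) (h : s.IsAvg X Y) :
    Y.PosSemidef := by
  have hY : Y.IsHermitian := by
    have := h.isSymm hZ (by
      simpa [Matrix.IsSymm, Matrix.conjTranspose_eq_transpose_of_trivial] using hX.isHermitian.eq)
    rwa [Matrix.IsHermitian, Matrix.conjTranspose_eq_transpose_of_trivial]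
  have hYs : IsSelfAdjoint Y := hY
  let g : ℝ → ℝ := fun x => max (-x) 0
  set T := cfc g Y with hT
  have hTI : s.Invariant T :=
    ⟨(h.1.commute_E.cfc_real g), (h.1.commute_Et.cfc_real g), (h.1.commute_Z.cfc_real g)⟩
  have hTt : Tᵀ = T := by
    have : IsSelfAdjoint T := cfc_predicate g Y
    rwa [IsSelfAdjoint, Matrix.star_eq_conjTranspose,
      Matrix.conjTranspose_eq_transpose_of_trivial] at this
  -- the trace of `T Y T` is at once nonnegative and a sum of nonpositive eigenvalues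
  have h1 : 0 ≤ (T * Y * T).trace := by
    have hpsd := (hX.mul_mul_conjTranspose_same T).trace_nonneg
    rw [Matrix.conjTranspose_eq_transpose_of_trivial, hTt, Matrix.trace_mul_comm,
      ← Matrix.mul_assoc] at hpsd
    rw [Matrix.trace_mul_comm, ← Matrix.mul_assoc]
    have h2 := h.2 (T * T) (hTI.mul hTI)
    rw [Matrix.transpose_mul, hTt] at h2
    rw [h2]
    exact hpsd
  have hg : Continuous g := (continuous_neg).max continuous_const
  set q : ℝ → ℝ := fun x => -(g x * x * g x) with hq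
  have hqnn : ∀ x, 0 ≤ q x := fun x => by
    simp only [q, g]
    rcases le_total x 0 with hx | hx
    · rw [max_eq_left (by linarith)]; nlinarith [mul_nonneg (neg_nonneg.2 hx) (mul_self_nonneg x)]
    · rw [max_eq_right (by linarith)]; simp
  have hcfc : cfc q Y = -(T * Y * T) := by
    rw [hq, cfc_neg (fun x => g x * x * g x) Y,
      cfc_mul (fun x => g x * x) g Y (hg.mul continuous_id).continuousOn hg.continuousOn,
      cfc_mul g (fun x => x) Y hg.continuousOn, cfc_id' ℝ Y]
  have hpos : (cfc q Y).PosSemidef := by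
    rw [hY.cfc_eq, Matrix.IsHermitian.cfc, Unitary.conjStarAlgAut_apply]
    have hd : (Matrix.diagonal (RCLike.ofReal ∘ q ∘ hY.eigenvalues) : Matrix ι ι ℝ).PosSemidef :=
      Matrix.PosSemidef.diagonal fun i => by simpa using hqnn _
    simpa [Matrix.star_eq_conjTranspose] using
      hd.mul_mul_conjTranspose_same (hY.eigenvectorUnitary : Matrix ι ι ℝ)
  have h0 : cfc q Y = 0 := by
    refine hpos.trace_eq_zero_iff.1 (le_antisymm ?_ hpos.trace_nonneg)
    rw [hcfc, Matrix.trace_neg]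
    linarith
  refine hY.posSemidef_iff_eigenvalues_nonneg.2 fun i => ?_
  have hq0 : q (hY.eigenvalues i) = 0 := by
    rw [← cfc_const_zero ℝ Y] at h0
    exact eqOn_of_cfc_eq_cfc h0 (Continuous.continuousOn (by fun_prop)) continuousOn_const hYs
      (hY.eigenvalues_mem_spectrum_real i)
  by_contra hlt
  simp only [Pi.zero_apply, not_le] at hlt
  simp only [q, g, max_eq_left (neg_nonneg.2 hlt.le)] at hq0
  have := mul_pos (neg_pos.2 hlt) (mul_pos (neg_pos.2 hlt) (neg_pos.2 hlt))
  nlinarith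

theorem IsAvg.posSemidef_sub (hZ : s.Z.IsSymm) (hle : (X' - X).PosSemidef) (h : s.IsAvg X Y)
    (h' : s.IsAvg X' Y') : (Y' - Y).PosSemidef :=
  (h'.sub h).posSemidef hZ hle

/-! ## Tensoring with a spectator -/

/-- The partial trace over the second factor. -/
def ptrace (W : Matrix (ι × κ) (ι × κ) ℝ) : Matrix ι ι ℝ := fun i j => ∑ k, W (i, k) (j, k)

omit [Fintype ι] [DecidableEq ι] [DecidableEq κ] in
lemma ptrace_sub (W W' : Matrix (ι × κ) (ι × κ) ℝ) : ptrace (W - W') = ptrace W - ptrace W' := by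
  ext i j; simp [ptrace, Finset.sum_sub_distrib]

lemma ptrace_commute (W : Matrix (ι × κ) (ι × κ) ℝ) (A : Matrix ι ι ℝ) (B : Matrix κ κ ℝ)
    (h : W * (A ⊗ₖ (1 : Matrix κ κ ℝ) + (1 : Matrix ι ι ℝ) ⊗ₖ B)
      = (A ⊗ₖ (1 : Matrix κ κ ℝ) + (1 : Matrix ι ι ℝ) ⊗ₖ B) * W) :
    ptrace W * A = A * ptrace W := by
  ext i j
  have hs : ∑ k, (W * (A ⊗ₖ (1 : Matrix κ κ ℝ) + (1 : Matrix ι ι ℝ) ⊗ₖ B)) (i, k) (j, k)
      = ∑ k, ((A ⊗ₖ (1 : Matrix κ κ ℝ) + (1 : Matrix ι ι ℝ) ⊗ₖ B) * W) (i, k) (j, k) := by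
    rw [h]
  simp only [Matrix.mul_apply, Matrix.add_apply, Matrix.kronecker_apply, Matrix.one_apply,
    Fintype.sum_prod_type, mul_add, add_mul, Finset.sum_add_distrib, mul_ite, ite_mul, mul_one,
    one_mul, mul_zero, zero_mul, Finset.sum_ite_eq, Finset.sum_ite_eq', Finset.mem_univ,
    if_true, Finset.sum_ite_irrel, Finset.sum_const_zero] at hs
  simp only [Matrix.mul_apply, ptrace, Finset.sum_mul, Finset.mul_sum]
  rw [Finset.sum_comm (f := fun k l => W (i, k) (l, k) * A l j),
    Finset.sum_comm (f := fun k l => A i l * W (l, k) (j, k))] at hs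
  have hB : ∑ k, ∑ l, W (i, k) (j, l) * B l k = ∑ k, ∑ l, B k l * W (i, l) (j, k) := by
    rw [Finset.sum_comm]
    exact Finset.sum_congr rfl fun k _ => Finset.sum_congr rfl fun l _ => mul_comm _ _
  linarith

omit [DecidableEq ι] in
lemma trace_mul_kronecker_one (W : Matrix (ι × κ) (ι × κ) ℝ) (A : Matrix ι ι ℝ) :
    (Wᵀ * (A ⊗ₖ (1 : Matrix κ κ ℝ))).trace = ((ptrace W)ᵀ * A).trace := by
  simp only [Matrix.trace, Matrix.diag, Matrix.mul_apply, Matrix.transpose_apply,
    Matrix.kronecker_apply, Matrix.one_apply, Fintype.sum_prod_type, ptrace, mul_ite, mul_one,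
    mul_zero, Finset.sum_ite_eq', Finset.mem_univ, if_true, Finset.sum_mul]
  refine Finset.sum_congr rfl fun i _ => ?_
  rw [Finset.sum_comm]

lemma ptrace_invariant {W : Matrix (ι × κ) (ι × κ) ℝ} (hW : (s.prod t).Invariant W) :
    s.Invariant (ptrace W) := by
  refine ⟨ptrace_commute W _ t.E hW.1, ptrace_commute W _ t.Eᵀ ?_, ptrace_commute W _ t.Z hW.2.2⟩
  have h := hW.2.1
  simpa [Spin.prod, Matrix.transpose_add, ← Matrix.kroneckerMap_transpose] using h

theorem IsAvg.kronecker_one (h : s.IsAvg X Y) :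
    (s.prod t).IsAvg (X ⊗ₖ (1 : Matrix κ κ ℝ)) (Y ⊗ₖ (1 : Matrix κ κ ℝ)) := by
  refine ⟨?_, fun W hW => ?_⟩
  · obtain ⟨h1, h2, h3⟩ := h.1
    refine ⟨?_, ?_, ?_⟩ <;>
      simp [Spin.prod, Matrix.mul_add, Matrix.add_mul, Matrix.transpose_add,
        ← Matrix.kroneckerMap_transpose, ← Matrix.mul_kronecker_mul, h1, h2, h3]
  · rw [trace_mul_kronecker_one, trace_mul_kronecker_one]
    exact h.2 _ (ptrace_invariant hW)

omit [Fintype ι] [Fintype κ] in
lemma prod_Z_isSymm (hs : s.Z.IsSymm) (ht : t.Z.IsSymm) : (s.prod t).Z.IsSymm := by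
  simp [Matrix.IsSymm, Spin.prod, Matrix.transpose_add, ← Matrix.kroneckerMap_transpose, hs.eq,
    ht.eq]

/-! ## Relabelling -/

omit [DecidableEq ι] [DecidableEq κ] in
lemma Invariant.submatrix {s' : Spin κ} (e : κ ≃ ι) (hE : s'.E = s.E.submatrix e e)
    (hZ : s'.Z = s.Z.submatrix e e) (h : s.Invariant T) : s'.Invariant (T.submatrix e e) := by
  obtain ⟨h1, h2, h3⟩ := h
  refine ⟨?_, ?_, ?_⟩ <;>
    simp [hE, hZ, Matrix.transpose_submatrix, Matrix.submatrix_mul_equiv, h1, h2, h3]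

omit [DecidableEq ι] [DecidableEq κ] in
theorem IsAvg.submatrix {s' : Spin κ} (e : κ ≃ ι) (hE : s'.E = s.E.submatrix e e)
    (hZ : s'.Z = s.Z.submatrix e e) (h : s.IsAvg X Y) :
    s'.IsAvg (X.submatrix e e) (Y.submatrix e e) := by
  refine ⟨h.1.submatrix e hE hZ, fun W hW => ?_⟩
  have hW' : s.Invariant (W.submatrix e.symm e.symm) :=
    hW.submatrix e.symm (by simp [hE, Matrix.submatrix_submatrix])
      (by simp [hZ, Matrix.submatrix_submatrix])
  have key : ∀ A : Matrix ι ι ℝ,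
      (Wᵀ * A.submatrix e e).trace = ((W.submatrix e.symm e.symm)ᵀ * A).trace := by
    intro A
    simp only [Matrix.trace, Matrix.diag, Matrix.mul_apply, Matrix.transpose_apply,
      Matrix.submatrix_apply]
    refine Fintype.sum_equiv e _ _ fun i => Fintype.sum_equiv e _ _ fun j => ?_
    simp
  rw [key, key]
  exact h.2 _ hW'

end Spin

lemma spin_Z_isSymm (D : ℕ) : (spin D).Z.IsSymm := Matrix.isSymm_diagonal _

lemma pairSpin_Z_isSymm (Q : ℕ) : (pairSpin Q).Z.IsSymm := Matrix.isSymm_diagonal _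

end Vale.Agent.P359
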