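import Vale.Agent.P359.Defs
import Vale.Agent.P359.Core.Identity

/-!
# P359: from the pair inequality to the gap

The pair components of antisymmetric states are admissible, the square of the Hamiltonian is the
pair form, and a pair inequality gives the gap above the Laughlin line.
-/

set_option linter.unusedSectionVars false

noncomputable section

namespace Vale.Agent.P359

open Vale.Agent.P359.Core (IsAntisymm IsPairFamily pairP contr)
open scoped InnerProductSpace

/-! ## The pair vectors -/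

theorem pairRaw_anti (Q : ℕ) (M : Pair Q) (a b : Orb Q) : pairRaw Q M b a = -pairRaw Q M a b := by
  unfold pairRaw
  rw [add_comm (b : ℕ) a, mul_comm (Q.choose b : ℝ)]
  split_ifs <;> ring

theorem pairVec_anti (Q : ℕ) (M : Pair Q) (a b : Orb Q) : pairVec Q M b a = -pairVec Q M a b := by
  rw [pairVec, pairVec, pairRaw_anti, neg_div]

theorem pairRaw_sq_pos (Q : ℕ) (M : Pair Q) : 0 < ∑ a, ∑ b, pairRaw Q M a b ^ 2 := by
  have hM : (M : ℕ) < 2 * Q - 1 := M.2
  obtain ⟨a, b, hab, hne⟩ : ∃ a b : Orb Q, (a : ℕ) + b = (M : ℕ) + 1 ∧ (a : ℕ) ≠ b := by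
    by_cases h : (M : ℕ) + 1 ≤ Q
    · exact ⟨⟨(M : ℕ) + 1, by omega⟩, ⟨0, by omega⟩, by simp, by simp⟩
    · exact ⟨⟨Q, by omega⟩, ⟨(M : ℕ) + 1 - Q, by omega⟩, by simp; omega, by simp; omega⟩
  refine lt_of_lt_of_le ?_ ((Finset.single_le_sum (fun b _ => sq_nonneg (pairRaw Q M a b))
    (Finset.mem_univ b)).trans (Finset.single_le_sum
    (f := fun a => ∑ b, pairRaw Q M a b ^ 2)
    (fun a _ => Finset.sum_nonneg fun b _ => sq_nonneg _) (Finset.mem_univ a)))
  rw [pairRaw, if_pos hab, mul_pow]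
  have h1 : ((a : ℕ) - (b : ℕ) : ℝ) ≠ 0 := sub_ne_zero.2 (by exact_mod_cast hne)
  have h2 : 0 < Q.choose a := Nat.choose_pos (by omega)
  have h3 : 0 < Q.choose b := Nat.choose_pos (by omega)
  rw [Real.sq_sqrt (by positivity)]
  positivity

theorem pairVec_ortho (Q : ℕ) (M M' : Pair Q) :
    ∑ a, ∑ b, pairVec Q M a b * pairVec Q M' a b = if M = M' then 1 else 0 := by
  split_ifs with h
  · subst h
    have hpos := pairRaw_sq_pos Q M
    simp only [pairVec, ← sq, div_pow, Real.sq_sqrt hpos.le, ← Finset.sum_div]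
    exact div_self hpos.ne'
  · refine Finset.sum_eq_zero fun a _ => Finset.sum_eq_zero fun b _ => ?_
    simp only [pairVec, pairRaw]
    split_ifs with h1 h2
    · exact absurd (Fin.ext (by omega)) h
    all_goals simp

theorem pairFamily (Q : ℕ) : IsPairFamily (pairVec Q) :=
  ⟨pairVec_anti Q, pairVec_ortho Q⟩

/-! ## Translation of the generic statements -/

theorem ham_eq (N Q : ℕ) (ψ : (Fin N → Orb Q) → ℝ) : Core.ham (pairVec Q) ψ = ham N Q ψ := rfl

theorem contr_eq {n : ℕ} (Q : ℕ) (ψ : (Fin (n + 2) → Orb Q) → ℝ) (M : Pair Q)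
    (y : Fin n → Orb Q) : contr (pairVec Q) ψ M y = pairPart Q ψ (M, y) := rfl

theorem isAnti_iff {N : ℕ} {ι : Type*} (ψ : (Fin N → ι) → ℝ) : IsAnti ψ ↔ IsAntisymm ψ :=
  Iff.rfl

/-- The pair part inherits antisymmetry. -/
theorem isAntiRest_pairPart {n Q : ℕ} {ψ : (Fin (n + 2) → Orb Q) → ℝ} (hψ : IsAnti ψ) :
    IsAntiRest (pairPart Q ψ) := fun M =>
  Core.isAntisymm_contr (e := pairVec Q) hψ M

/-- A channel with `kerK u = -u` is killed by three-particle antisymmetrisation. -/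
theorem channel_killed {Q : ℕ} {u : Pair Q × Orb Q → ℝ}
    (hu : ∀ p, ∑ q, kerK Q p q * u q = -u p) (a b c : Orb Q) :
    (∑ M, u (M, c) * pairVec Q M a b) + (∑ M, u (M, a) * pairVec Q M b c)
      + (∑ M, u (M, b) * pairVec Q M c a) = 0 := by
  set e := pairVec Q with he
  set t : Orb Q → Orb Q → Orb Q → ℝ := fun a b c => ∑ M, u (M, c) * e M a b with ht
  have h3 : ∀ F : Orb Q → Orb Q → Orb Q → ℝ,
      ∑ a, ∑ b, ∑ c, F b c a = ∑ a, ∑ b, ∑ c, F a b c := fun F => by
    rw [Finset.sum_comm]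
    exact Finset.sum_congr rfl fun b _ => Finset.sum_comm
  have hS0 : ∑ a, ∑ b, ∑ c, t a b c * t a b c = ∑ p, u p ^ 2 := by
    calc ∑ a, ∑ b, ∑ c, t a b c * t a b c
        = ∑ a, ∑ b, ∑ c, ∑ M, ∑ M', (u (M, c) * u (M', c)) * (e M a b * e M' a b) := by
          refine Finset.sum_congr rfl fun a _ => Finset.sum_congr rfl fun b _ =>
            Finset.sum_congr rfl fun c _ => ?_
          simp only [ht, Finset.sum_mul, Finset.mul_sum]
          rw [Finset.sum_comm]
          refine Finset.sum_congr rfl fun M _ => Finset.sum_congr rfl fun M' _ => ?_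
          ring
      _ = ∑ p : Orb Q × Orb Q, ∑ q : Orb Q × Pair Q × Pair Q,
            (u (q.2.1, q.1) * u (q.2.2, q.1)) * (e q.2.1 p.1 p.2 * e q.2.2 p.1 p.2) := by
          simp only [Fintype.sum_prod_type]
      _ = ∑ c, ∑ M, ∑ M', (u (M, c) * u (M', c)) * if M = M' then 1 else 0 := by
          rw [Finset.sum_comm]
          simp only [Fintype.sum_prod_type, ← Finset.mul_sum, he, pairVec_ortho]
      _ = _ := by
          simp only [mul_ite, mul_one, mul_zero, Finset.sum_ite_eq, Finset.mem_univ, if_true, ← sq]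
          rw [Finset.sum_comm, Fintype.sum_prod_type]
  have hS1 : ∑ a, ∑ b, ∑ c, t a b c * t b c a = -(1 / 2) * ∑ p, u p ^ 2 := by
    have hK : ∀ (M M' : Pair Q) (a c : Orb Q),
        ∑ b, e M a b * e M' b c = 1 / 2 * kerK Q (M, c) (M', a) := by
      intro M M' a c
      simp only [kerK, he, Finset.mul_sum]
      refine Finset.sum_congr rfl fun b _ => ?_
      rw [pairVec_anti Q M b a]
      ring
    calc ∑ a, ∑ b, ∑ c, t a b c * t b c a
        = ∑ a, ∑ c, ∑ b, ∑ M, ∑ M', (u (M, c) * u (M', a)) * (e M a b * e M' b c) := by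
          refine Finset.sum_congr rfl fun a _ => ?_
          rw [Finset.sum_comm]
          refine Finset.sum_congr rfl fun c _ => Finset.sum_congr rfl fun b _ => ?_
          simp only [ht, Finset.sum_mul, Finset.mul_sum]
          rw [Finset.sum_comm]
          refine Finset.sum_congr rfl fun M _ => Finset.sum_congr rfl fun M' _ => ?_
          ring
      _ = ∑ a, ∑ c, ∑ M, ∑ M', (u (M, c) * u (M', a)) * ∑ b, e M a b * e M' b c := by
          refine Finset.sum_congr rfl fun a _ => Finset.sum_congr rfl fun c _ => ?_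
          simp only [Finset.mul_sum]
          rw [Finset.sum_comm]
          exact Finset.sum_congr rfl fun M _ => Finset.sum_comm
      _ = 1 / 2 * ∑ p, u p * ∑ q, kerK Q p q * u q := by
          simp only [hK, Finset.mul_sum, Fintype.sum_prod_type]
          calc ∑ a, ∑ c, ∑ M, ∑ M', (u (M, c) * u (M', a)) * (1 / 2 * kerK Q (M, c) (M', a))
              = ∑ q : Orb Q × Pair Q, ∑ p : Orb Q × Pair Q,
                  (u (p.2, p.1) * u (q.2, q.1)) * (1 / 2 * kerK Q (p.2, p.1) (q.2, q.1)) := by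
                simp only [Fintype.sum_prod_type]
                refine Finset.sum_congr rfl fun a _ => ?_
                rw [Finset.sum_congr rfl fun c _ => Finset.sum_comm, Finset.sum_comm]
            _ = _ := by
                rw [Finset.sum_comm]
                simp only [Fintype.sum_prod_type]
                rw [Finset.sum_comm]
                refine Finset.sum_congr rfl fun M _ => Finset.sum_congr rfl fun c _ => ?_
                rw [Finset.sum_comm]
                refine Finset.sum_congr rfl fun M' _ => Finset.sum_congr rfl fun a _ => ?_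
                ring
      _ = _ := by
          simp only [hu, mul_neg, Finset.sum_neg_distrib, ← sq]
          ring
  have hS2 : ∑ a, ∑ b, ∑ c, t a b c * t c a b = ∑ a, ∑ b, ∑ c, t a b c * t b c a := by
    rw [← h3 fun a b c => t a b c * t c a b]
    simp only [mul_comm]
  have hsum : ∑ a, ∑ b, ∑ c, (t a b c + t b c a + t c a b) ^ 2 = 0 := by
    have e1 := h3 fun a b c => t a b c * t a b c
    have e2 := h3 fun a b c => t b c a * t b c a
    have e3 := h3 fun a b c => t a b c * t b c a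
    have e4 : ∀ a b c : Orb Q, (t a b c + t b c a + t c a b) ^ 2
        = t a b c * t a b c + t b c a * t b c a + t c a b * t c a b
          + 2 * (t a b c * t b c a) + 2 * (t b c a * t c a b) + 2 * (t a b c * t c a b) :=
      fun a b c => by ring
    simp only [e4, Finset.sum_add_distrib, ← Finset.mul_sum, e1, e2, e3, hS0, hS1, hS2]
    ring
  have h := (Finset.sum_eq_zero_iff_of_nonneg fun a _ => Finset.sum_nonneg fun b _ =>
    Finset.sum_nonneg fun c _ => sq_nonneg _).1 hsum a (Finset.mem_univ a)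
  have h' := (Finset.sum_eq_zero_iff_of_nonneg fun b _ =>
    Finset.sum_nonneg fun c _ => sq_nonneg _).1 h b (Finset.mem_univ b)
  exact pow_eq_zero_iff two_ne_zero |>.1
    ((Finset.sum_eq_zero_iff_of_nonneg fun c _ => sq_nonneg _).1 h' c (Finset.mem_univ c))

/-- The pair component of an antisymmetric state is admissible. -/
theorem isAdmissible_pairPart {n Q : ℕ} {ψ : (Fin (n + 2) → Orb Q) → ℝ} (hψ : IsAnti ψ) :
    IsAdmissible (pairPart Q ψ) := by
  refine ⟨isAntiRest_pairPart hψ, fun u hu i y => ?_⟩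
  cases n with
  | zero => exact i.elim0
  | succ n =>
    set σ := Equiv.swap (0 : Fin (n + 1)) i
    have h0 := Core.channel_orth (e := pairVec Q) hψ (fun M z => u (M, z)) (channel_killed hu)
      (Fin.tail (y ∘ σ))
    have he : ∀ (M : Pair Q) (z : Orb Q), pairPart Q ψ (M, Function.update y i z)
        = ((Equiv.Perm.sign σ : ℤ) : ℝ)
          * contr (pairVec Q) ψ M (Fin.cons z (Fin.tail (y ∘ σ))) := by
      intro M z
      have h1 : (Fin.cons z (Fin.tail (y ∘ σ)) : Fin (n + 1) → Orb Q)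
          = Function.update y i z ∘ σ := by
        rw [Function.update_comp_equiv]
        conv_rhs => rw [← Fin.cons_self_tail (y ∘ σ)]
        simp [σ]
      rw [h1, Core.isAntisymm_contr hψ M σ, ← mul_assoc, Core.sign_mul_self, one_mul, contr_eq]
    rw [Fintype.sum_prod_type]
    calc ∑ M, ∑ z, u (M, z) * pairPart Q ψ (M, Function.update y i z)
        = ((Equiv.Perm.sign σ : ℤ) : ℝ)
          * ∑ M, ∑ z, u (M, z) * contr (pairVec Q) ψ M (Fin.cons z (Fin.tail (y ∘ σ))) := by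
          simp only [Finset.mul_sum, he]
          refine Finset.sum_congr rfl fun M _ => Finset.sum_congr rfl fun z _ => ?_
          ring
      _ = 0 := by rw [h0, mul_zero]

/-! ## The identity -/

theorem nsq_eq {n Q : ℕ} (ψ : (Fin (n + 2) → Orb Q) → ℝ) :
    Core.nsq (contr (pairVec Q) ψ) = ip (pairPart Q ψ) (pairPart Q ψ) := by
  simp only [Core.nsq, ip, Fintype.sum_prod_type, sq, contr_eq]

theorem restForm_eq {n Q : ℕ} (ψ : (Fin (n + 2) → Orb Q) → ℝ) :
    Core.restForm (pairVec Q) (contr (pairVec Q) ψ) = qV Q (pairPart Q ψ) := rfl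

theorem exchForm_eq {n Q : ℕ} (ψ : (Fin (n + 2) → Orb Q) → ℝ) :
    Core.exchForm (pairVec Q) (contr (pairVec Q) ψ) = qK Q (pairPart Q ψ) := by
  unfold Core.exchForm qK
  simp only [Core.exchAt, Finset.mul_sum, Fintype.sum_prod_type]
  calc ∑ M, ∑ y, ∑ k, ∑ M', ∑ z', contr (pairVec Q) ψ M y
        * (Core.exch (pairVec Q) M (y k) M' z'
          * contr (pairVec Q) ψ M' (Function.update y k z'))
      = ∑ M, ∑ k, ∑ y, ∑ M', ∑ z', contr (pairVec Q) ψ M y
        * (Core.exch (pairVec Q) M (y k) M' z'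
          * contr (pairVec Q) ψ M' (Function.update y k z')) :=
        Finset.sum_congr rfl fun M _ => Finset.sum_comm
    _ = _ := by
        rw [Finset.sum_comm]
        refine Finset.sum_congr rfl fun k _ => Finset.sum_congr rfl fun M _ =>
          Finset.sum_congr rfl fun y _ => Finset.sum_congr rfl fun M' _ =>
          Finset.sum_congr rfl fun z' _ => ?_
        rw [← mul_assoc]
        rfl

/-- The expectation of the Hamiltonian. -/
theorem ip_ham {n Q : ℕ} {ψ : (Fin (n + 2) → Orb Q) → ℝ} (hψ : IsAnti ψ) :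
    ip ψ (ham (n + 2) Q ψ) = ((n + 2).choose 2 : ℝ) * ip (pairPart Q ψ) (pairPart Q ψ) := by
  rw [← nsq_eq]
  exact Core.form_eq (e := pairVec Q) hψ

/-- The expectation of the square of the Hamiltonian. -/
theorem ip_ham_ham {n Q : ℕ} {ψ : (Fin (n + 2) → Orb Q) → ℝ} (hψ : IsAnti ψ) :
    ip (ham (n + 2) Q ψ) (ham (n + 2) Q ψ) = ((n + 2).choose 2 : ℝ) *
      (ip (pairPart Q ψ) (pairPart Q ψ) + qK Q (pairPart Q ψ) + qV Q (pairPart Q ψ)) := by
  rw [← nsq_eq, ← exchForm_eq, ← restForm_eq]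
  refine Eq.trans ?_ (Core.sq_eq (pairFamily Q) hψ)
  simp [ip, sq, ham_eq]

/-- `H² ≥ γ H` from the pair inequality. -/
theorem gap_of_pairBound {N Q : ℕ} {γ : ℝ} (hP : PairBound Q γ) {ψ : (Fin N → Orb Q) → ℝ}
    (hψ : IsAnti ψ) : γ * ip ψ (ham N Q ψ) ≤ ip (ham N Q ψ) (ham N Q ψ) := by
  by_cases hN : N < 2
  · have h : ham N Q ψ = 0 := by
      funext x
      refine Finset.sum_eq_zero fun i _ => Finset.sum_eq_zero fun j _ => if_neg ?_
      simp only [Fin.lt_def]
      omega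
    simp [h, ip]
  · obtain ⟨n, rfl⟩ : ∃ n, N = n + 2 := ⟨N - 2, by omega⟩
    rw [ip_ham hψ, ip_ham_ham hψ, mul_left_comm]
    exact mul_le_mul_of_nonneg_left (hP n _ (isAdmissible_pairPart hψ)) (Nat.cast_nonneg _)

/-! ## The spectral glue -/

/-- The antisymmetric states as a subspace. -/
def antiSpace (N Q : ℕ) : Submodule ℝ (EuclideanSpace ℝ (Fin N → Orb Q)) where
  carrier := {v | IsAnti v.ofLp}
  zero_mem' := fun σ x => by simp
  add_mem' := fun {v w} hv hw σ x => by
    show v.ofLp (x ∘ σ) + w.ofLp (x ∘ σ) = _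
    rw [hv σ x, hw σ x]
    exact (mul_add _ _ _).symm
  smul_mem' := fun c v hv σ x => by
    show c * v.ofLp (x ∘ σ) = _
    rw [hv σ x]
    exact mul_left_comm _ _ _

theorem ham_add {N Q : ℕ} (f g : (Fin N → Orb Q) → ℝ) :
    ham N Q (f + g) = ham N Q f + ham N Q g := by
  funext x
  simp only [ham, pairOp, Pi.add_apply, ← Finset.sum_add_distrib]
  refine Finset.sum_congr rfl fun i _ => Finset.sum_congr rfl fun j _ => ?_
  split_ifs <;> simp [mul_add, Finset.sum_add_distrib]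

theorem ham_smul {N Q : ℕ} (c : ℝ) (f : (Fin N → Orb Q) → ℝ) :
    ham N Q (c • f) = c • ham N Q f := by
  funext x
  simp only [ham, pairOp, Pi.smul_apply, smul_eq_mul, Finset.mul_sum, mul_ite, mul_zero]
  refine Finset.sum_congr rfl fun i _ => Finset.sum_congr rfl fun j _ => ?_
  refine if_congr Iff.rfl (Finset.sum_congr rfl fun M _ => Finset.sum_congr rfl fun a _ =>
    Finset.sum_congr rfl fun b _ => ?_) rfl
  ring

/-- The Hamiltonian on the antisymmetric states. -/
def hamL (N Q : ℕ) : antiSpace N Q →ₗ[ℝ] antiSpace N Q where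
  toFun v := ⟨WithLp.toLp 2 (ham N Q v.1.ofLp), Core.isAntisymm_ham (pairFamily Q) v.2⟩
  map_add' v w := Subtype.ext (congrArg (WithLp.toLp 2) (ham_add _ _))
  map_smul' c v := Subtype.ext (congrArg (WithLp.toLp 2) (ham_smul _ _))

theorem inner_antiSpace {N Q : ℕ} (v w : antiSpace N Q) : ⟪v, w⟫_ℝ = ip v.1.ofLp w.1.ofLp := by
  rw [Submodule.coe_inner, PiLp.inner_apply, ip]
  refine Finset.sum_congr rfl fun x _ => ?_
  rw [RCLike.inner_apply, conj_trivial, mul_comm]

theorem isSymmetric_hamL (n Q : ℕ) : (hamL (n + 2) Q).IsSymmetric := by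
  intro v w
  rw [inner_antiSpace, inner_antiSpace]
  have h1 := Core.sum_ham_mul (e := pairVec Q) v.2 w.2
  have h2 := Core.sum_ham_mul (e := pairVec Q) w.2 v.2
  show ip (ham (n + 2) Q v.1.ofLp) w.1.ofLp = ip v.1.ofLp (ham (n + 2) Q w.1.ofLp)
  simp only [ip, ← ham_eq, mul_comm (v.1.ofLp _)]
  rw [h1, h2]
  simp only [mul_comm]

/-- The gap inequality from `H² ≥ γ H` and the uniqueness of the zero state. -/
theorem gapBound_of_sq {N : ℕ} {γ : ℝ} (hN : 2 ≤ N) (hγ : 0 < γ)
    (hP : ∀ ψ : (Fin N → Orb (3 * (N - 1))) → ℝ, IsAnti ψ →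
      γ * ip ψ (ham N (3 * (N - 1)) ψ) ≤ ip (ham N (3 * (N - 1)) ψ) (ham N (3 * (N - 1)) ψ))
    (hL : ip (laughlin N (3 * (N - 1))) (laughlin N (3 * (N - 1))) ≠ 0)
    (hLa : IsAnti (laughlin N (3 * (N - 1))))
    (hker : ∀ ψ : (Fin N → Orb (3 * (N - 1))) → ℝ, IsAnti ψ → ham N (3 * (N - 1)) ψ = 0 →
      ∃ c : ℝ, ψ = c • laughlin N (3 * (N - 1))) :
    GapBound γ N := by
  refine ⟨hL, fun ψ hψ => ?_⟩
  obtain ⟨n, rfl⟩ : ∃ n, N = n + 2 := ⟨N - 2, by omega⟩
  generalize hQ : 3 * (n + 2 - 1) = Q at hP hL hLa hker ψ hψ ⊢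
  set L : antiSpace (n + 2) Q := ⟨WithLp.toLp 2 (laughlin (n + 2) Q), hLa⟩
  set v : antiSpace (n + 2) Q := ⟨WithLp.toLp 2 ψ, hψ⟩
  have hT := isSymmetric_hamL n Q
  set d := Module.finrank ℝ (antiSpace (n + 2) Q) with hd
  set b := hT.eigenvectorBasis hd.symm with hb
  set ev := hT.eigenvalues hd.symm with hev
  have hTb : ∀ i, hamL (n + 2) Q (b i) = ev i • b i := fun i =>
    hT.apply_eigenvectorBasis hd.symm i
  have hsl : ∀ (r : ℝ) (x y : antiSpace (n + 2) Q), ⟪r • x, y⟫_ℝ = r * ⟪x, y⟫_ℝ :=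
    fun r x y => real_inner_smul_left x y r
  have hsr : ∀ (r : ℝ) (x y : antiSpace (n + 2) Q), ⟪x, r • y⟫_ℝ = r * ⟪x, y⟫_ℝ :=
    fun r x y => real_inner_smul_right x y r
  have hnorm : ∀ i, ⟪b i, b i⟫_ℝ = 1 := fun i => by
    rw [real_inner_self_eq_norm_sq, b.orthonormal.1 i, one_pow]
  have hev' : ∀ i, ev i = 0 ∨ γ ≤ ev i := by
    intro i
    have h := hP _ (b i).2
    have e1 : ip (b i).1.ofLp (ham (n + 2) Q (b i).1.ofLp) = ev i := by
      rw [show ip (b i).1.ofLp (ham (n + 2) Q (b i).1.ofLp) = ⟪b i, hamL (n + 2) Q (b i)⟫_ℝ from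
        (inner_antiSpace (b i) (hamL (n + 2) Q (b i))).symm, hTb, hsr, hnorm, mul_one]
    have e2 : ip (ham (n + 2) Q (b i).1.ofLp) (ham (n + 2) Q (b i).1.ofLp) = ev i * ev i := by
      rw [show ip (ham (n + 2) Q (b i).1.ofLp) (ham (n + 2) Q (b i).1.ofLp)
          = ⟪hamL (n + 2) Q (b i), hamL (n + 2) Q (b i)⟫_ℝ from
            (inner_antiSpace (hamL (n + 2) Q (b i)) (hamL (n + 2) Q (b i))).symm,
        hTb, hsl, hsr, hnorm, mul_one]
    have e3 : 0 ≤ ev i := by
      rw [← e1, ip_ham (b i).2]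
      exact mul_nonneg (Nat.cast_nonneg _) (Finset.sum_nonneg fun p _ => mul_self_nonneg _)
    rw [e1, e2] at h
    rcases e3.eq_or_lt with h0 | h0
    · exact Or.inl h0.symm
    · exact Or.inr (le_of_mul_le_mul_right h h0)
  have hz : ∀ i, ev i = 0 → ∃ c : ℝ, b i = c • L := by
    intro i hi
    obtain ⟨c, hc⟩ := hker _ (b i).2 (congrArg (fun w : antiSpace (n + 2) Q => w.1.ofLp)
      (show hamL (n + 2) Q (b i) = 0 by rw [hTb, hi, zero_smul]))
    exact ⟨c, Subtype.ext (congrArg (WithLp.toLp 2) hc)⟩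
  have hLL : ⟪L, L⟫_ℝ = ip (laughlin (n + 2) Q) (laughlin (n + 2) Q) := inner_antiSpace L L
  have hLv : ⟪L, v⟫_ℝ = ip (laughlin (n + 2) Q) ψ := inner_antiSpace L v
  have hvv : ⟪v, v⟫_ℝ = ip ψ ψ := inner_antiSpace v v
  have hvT : ⟪v, hamL (n + 2) Q v⟫_ℝ = ip ψ (ham (n + 2) Q ψ) := inner_antiSpace _ _
  rw [← hLL, ← hLv, ← hvv, ← hvT]
  set c : Fin d → ℝ := fun i => ⟪b i, v⟫_ℝ with hc
  have hv2 : ⟪v, v⟫_ℝ = ∑ i, c i ^ 2 := by
    rw [← b.sum_inner_mul_inner v v]
    refine Finset.sum_congr rfl fun i _ => ?_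
    show ⟪v, b i⟫_ℝ * ⟪b i, v⟫_ℝ = ⟪b i, v⟫_ℝ ^ 2
    rw [real_inner_comm (b i) v, sq]
  have hTv : ⟪v, hamL (n + 2) Q v⟫_ℝ = ∑ i, ev i * c i ^ 2 := by
    rw [← b.sum_inner_mul_inner v (hamL (n + 2) Q v)]
    refine Finset.sum_congr rfl fun i _ => ?_
    show ⟪v, b i⟫_ℝ * ⟪b i, hamL (n + 2) Q v⟫_ℝ = ev i * ⟪b i, v⟫_ℝ ^ 2
    rw [← hT (b i) v, hTb, hsl, real_inner_comm (b i) v]
    ring
  have hzero : ∑ i with ev i = 0, c i ^ 2 ≤ ⟪L, v⟫_ℝ ^ 2 / ⟪L, L⟫_ℝ := by
    rcases (Finset.univ.filter fun i => ev i = 0).eq_empty_or_nonempty with h | ⟨i, hi⟩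
    · rw [h, Finset.sum_empty]
      exact div_nonneg (sq_nonneg _) real_inner_self_nonneg
    · have hcard : (Finset.univ.filter fun i => ev i = 0) = {i} := by
        refine Finset.eq_singleton_iff_unique_mem.2 ⟨hi, fun j hj => ?_⟩
        obtain ⟨p, hp⟩ := hz i (Finset.mem_filter.1 hi).2
        obtain ⟨q, hq⟩ := hz j (Finset.mem_filter.1 hj).2
        by_contra hne
        have h0 : ⟪b j, b i⟫_ℝ = 0 := b.orthonormal.2 hne
        have hp1 := hnorm i
        have hq1 := hnorm j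
        rw [hp, hsl, hsr] at hp1
        rw [hq, hsl, hsr] at hq1
        rw [hp, hq, hsl, hsr] at h0
        have : (q * (p * ⟪L, L⟫_ℝ)) ^ 2 = 1 := by linear_combination (p * (p * ⟪L, L⟫_ℝ)) * hq1 + hp1
        rw [h0] at this
        norm_num at this
      rw [hcard, Finset.sum_singleton]
      obtain ⟨p, hp⟩ := hz i (Finset.mem_filter.1 hi).2
      have h1 := hnorm i
      rw [hp, hsl, hsr] at h1
      have h2 : c i = p * ⟪L, v⟫_ℝ := by rw [← hsl, ← hp]
      rw [h2, le_div_iff₀ (lt_of_le_of_ne real_inner_self_nonneg (by rw [hLL]; exact hL.symm))]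
      refine le_of_eq ?_
      linear_combination ⟪L, v⟫_ℝ ^ 2 * h1
  rw [hv2, hTv]
  have hsplit := Finset.sum_filter_add_sum_filter_not Finset.univ (fun i => ev i = 0)
    (fun i => c i ^ 2)
  have hle : γ * ∑ i with ¬ev i = 0, c i ^ 2 ≤ ∑ i, ev i * c i ^ 2 := by
    rw [Finset.mul_sum, ← Finset.sum_filter_add_sum_filter_not Finset.univ (fun i => ev i = 0)
      (fun i => ev i * c i ^ 2), Finset.sum_eq_zero (s := Finset.univ.filter fun i => ev i = 0)
      (f := fun i => ev i * c i ^ 2) (fun i hi => by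
        rw [(Finset.mem_filter.1 hi).2, zero_mul]), zero_add]
    refine Finset.sum_le_sum fun i hi => mul_le_mul_of_nonneg_right ?_ (sq_nonneg _)
    exact (hev' i).resolve_left (Finset.mem_filter.1 hi).2
  nlinarith

/-- The gap inequality from the pair inequality and the uniqueness of the zero state. -/
theorem gapBound_of {N : ℕ} {γ : ℝ} (hN : 2 ≤ N) (hγ : 0 < γ) (hP : PairBound (3 * (N - 1)) γ)
    (hL : ip (laughlin N (3 * (N - 1))) (laughlin N (3 * (N - 1))) ≠ 0)
    (hLa : IsAnti (laughlin N (3 * (N - 1))))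
    (hker : ∀ ψ : (Fin N → Orb (3 * (N - 1))) → ℝ, IsAnti ψ → ham N (3 * (N - 1)) ψ = 0 →
      ∃ c : ℝ, ψ = c • laughlin N (3 * (N - 1))) :
    GapBound γ N :=
  gapBound_of_sq hN hγ (fun _ hψ => gap_of_pairBound hP hψ) hL hLa hker

end Vale.Agent.P359
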