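import Vale.Agent.P359.Spin.Exchange
import Vale.Agent.P359.Spin.Pi

/-!
# P359: facts about the spin operators

`Spin/Rep`: highest weight vectors, averages between them, positivity test, intertwiners;
`Spin/Pair`: the two spins and the intertwiner `pairV`; `Spin/Exchange`: invariance of `kerK` and
its value on relative momenta `0, 1, 3`; `Spin/Pi`: several slots.
-/
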