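import Mathlib

/-!
# P359: the spherical pseudopotential at relative angular momentum one

Coordinates: `Orb Q` indexes the orthonormal monomials `√(C(Q,i)) z^i`; `Pair Q` indexes the pair
multiplet of total spin `Q - 1`, spanned by `(z₁ - z₂)` times the polynomials of that spin.
-/

namespace Vale.Agent.P359

open Finset Matrix

/-- The orbitals with `Q` flux quanta. -/
abbrev Orb (Q : ℕ) : Type := Fin (Q + 1)

/-- The weights of the pair multiplet of spin `Q - 1`. -/
abbrev Pair (Q : ℕ) : Type := Fin (2 * Q - 1)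

/-- A pair vector before normalisation. -/
noncomputable def pairRaw (Q : ℕ) (M : Pair Q) (a b : Orb Q) : ℝ :=
  if (a : ℕ) + b = (M : ℕ) + 1 then
    ((a : ℕ) - (b : ℕ) : ℝ) * Real.sqrt ((Q.choose a : ℝ) * (Q.choose b : ℝ))
  else 0

/-- The orthonormal basis of the pair multiplet. -/
noncomputable def pairVec (Q : ℕ) (M : Pair Q) (a b : Orb Q) : ℝ :=
  pairRaw Q M a b / Real.sqrt (∑ a', ∑ b', pairRaw Q M a' b' ^ 2)

/-- Antisymmetry under permutations of the particles. -/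
def IsAnti {N : ℕ} {ι : Type*} (ψ : (Fin N → ι) → ℝ) : Prop :=
  ∀ (σ : Equiv.Perm (Fin N)) (x : Fin N → ι), ψ (x ∘ σ) = ((Equiv.Perm.sign σ : ℤ) : ℝ) * ψ x

/-- The projection of the particles `i`, `j` onto the pair multiplet. -/
noncomputable def pairOp {N : ℕ} (Q : ℕ) (i j : Fin N) (ψ : (Fin N → Orb Q) → ℝ)
    (x : Fin N → Orb Q) : ℝ :=
  ∑ M, pairVec Q M (x i) (x j) *
    ∑ a, ∑ b, pairVec Q M a b * ψ (Function.update (Function.update x i a) j b)

/-- The pseudopotential Hamiltonian. -/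
noncomputable def ham (N Q : ℕ) (ψ : (Fin N → Orb Q) → ℝ) (x : Fin N → Orb Q) : ℝ :=
  ∑ i, ∑ j, if i < j then pairOp Q i j ψ x else 0

/-- The inner product. -/
def ip {ι : Type*} [Fintype ι] (f g : ι → ℝ) : ℝ := ∑ x, f x * g x

/-- The polynomial `∏_{i<j} (z_i - z_j)^3`. -/
noncomputable def laughlinPoly (N : ℕ) : MvPolynomial (Fin N) ℝ :=
  ∏ i, ∏ j, if i < j then (MvPolynomial.X i - MvPolynomial.X j) ^ 3 else 1

/-- The Laughlin vector in the orthonormal basis. -/
noncomputable def laughlin (N Q : ℕ) (x : Fin N → Orb Q) : ℝ :=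
  MvPolynomial.coeff (Finsupp.equivFunOnFinite.symm fun i => (x i : ℕ)) (laughlinPoly N) /
    Real.sqrt (∏ i, (Q.choose (x i) : ℝ))

/-- The exchange kernel between a pair and a third particle. -/
noncomputable def kerK (Q : ℕ) : Matrix (Pair Q × Orb Q) (Pair Q × Orb Q) ℝ :=
  fun p q => -2 * ∑ a, pairVec Q p.1 a q.2 * pairVec Q q.1 a p.2

/-- The pair component of a state: pair weight and the remaining particles. -/
noncomputable def pairPart {n : ℕ} (Q : ℕ) (ψ : (Fin (n + 2) → Orb Q) → ℝ)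
    (p : Pair Q × (Fin n → Orb Q)) : ℝ :=
  ∑ a, ∑ b, pairVec Q p.1 a b * ψ (Fin.cons a (Fin.cons b p.2))

/-- States of a pair and `n` fermions. -/
def IsAntiRest {n : ℕ} {Q : ℕ} (φ : Pair Q × (Fin n → Orb Q) → ℝ) : Prop :=
  ∀ M, IsAnti fun y => φ (M, y)

/-- The states which can occur as pair components: orthogonal to every vector `u` of pair and
particle with `kerK u = -u`. -/
def IsAdmissible {n : ℕ} {Q : ℕ} (φ : Pair Q × (Fin n → Orb Q) → ℝ) : Prop :=
  IsAntiRest φ ∧ ∀ u : Pair Q × Orb Q → ℝ, (∀ p, ∑ q, kerK Q p q * u q = -u p) →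
    ∀ (i : Fin n) (y : Fin n → Orb Q), ∑ p, u p * φ (p.1, Function.update y i p.2) = 0

/-- The quadratic form of the exchange kernel summed over the third particle. -/
noncomputable def qK {n : ℕ} (Q : ℕ) (φ : Pair Q × (Fin n → Orb Q) → ℝ) : ℝ :=
  ∑ i, ∑ p : Pair Q × (Fin n → Orb Q), ∑ q : Pair Q × Orb Q,
    φ p * kerK Q (p.1, p.2 i) q * φ (q.1, Function.update p.2 i q.2)

/-- The interaction energy of the particles outside the pair. -/
noncomputable def qV {n : ℕ} (Q : ℕ) (φ : Pair Q × (Fin n → Orb Q) → ℝ) : ℝ :=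
  ∑ M, ip (fun y => φ (M, y)) (ham n Q fun y => φ (M, y))

/-- The local inequality from which the gap follows. -/
def PairBound (Q : ℕ) (γ : ℝ) : Prop :=
  ∀ (n : ℕ) (φ : Pair Q × (Fin n → Orb Q) → ℝ), IsAdmissible φ →
    γ * ip φ φ ≤ ip φ φ + qK Q φ + qV Q φ

/-- The uniform gap inequality `H ≥ δ (1 - P_L)` at filling one third. -/
def GapBound (δ : ℝ) (N : ℕ) : Prop :=
  ip (laughlin N (3 * (N - 1))) (laughlin N (3 * (N - 1))) ≠ 0 ∧
  ∀ ψ : (Fin N → Orb (3 * (N - 1))) → ℝ, IsAnti ψ →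
    δ * (ip ψ ψ - ip (laughlin N (3 * (N - 1))) ψ ^ 2 /
        ip (laughlin N (3 * (N - 1))) (laughlin N (3 * (N - 1))))
      ≤ ip ψ (ham N (3 * (N - 1)) ψ)

/-- Spin operators on a finite index set: the lowering derivative and the weight. -/
structure Spin (ι : Type*) where
  E : Matrix ι ι ℝ
  Z : Matrix ι ι ℝ

/-- The spin `D / 2` operators in the orthonormal monomial basis. -/
noncomputable def spin (D : ℕ) : Spin (Fin (D + 1)) where
  E := fun i j => if (j : ℕ) = i + 1 then Real.sqrt (((i : ℕ) + 1 : ℝ) * ((D : ℝ) - (i : ℕ))) else 0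
  Z := Matrix.diagonal fun i => ((i : ℕ) : ℝ) - (D : ℝ) / 2

/-- The spin operators of the pair multiplet. -/
noncomputable def pairSpin (Q : ℕ) : Spin (Pair Q) where
  E := fun i j => if (j : ℕ) = i + 1 then
    Real.sqrt (((i : ℕ) + 1 : ℝ) * (2 * (Q : ℝ) - 2 - (i : ℕ))) else 0
  Z := Matrix.diagonal fun i => ((i : ℕ) : ℝ) - ((Q : ℝ) - 1)

/-- Spin operators of a tensor product. -/
noncomputable def Spin.prod {ι κ : Type*} [DecidableEq ι] [DecidableEq κ] (s : Spin ι) (t : Spin κ) :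
    Spin (ι × κ) where
  E := Matrix.kronecker s.E (1 : Matrix κ κ ℝ) + Matrix.kronecker (1 : Matrix ι ι ℝ) t.E
  Z := Matrix.kronecker s.Z (1 : Matrix κ κ ℝ) + Matrix.kronecker (1 : Matrix ι ι ℝ) t.Z

/-- Operators commuting with the spin operators. -/
def Spin.Invariant {ι : Type*} [Fintype ι] (s : Spin ι) (T : Matrix ι ι ℝ) : Prop :=
  T * s.E = s.E * T ∧ T * s.Eᵀ = s.Eᵀ * T ∧ T * s.Z = s.Z * T

/-- `Y` is the average of `X`: invariant, with the same pairing against invariant operators. -/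
def Spin.IsAvg {ι : Type*} [Fintype ι] (s : Spin ι) (X Y : Matrix ι ι ℝ) : Prop :=
  s.Invariant Y ∧ ∀ T, s.Invariant T → (Tᵀ * Y).trace = (Tᵀ * X).trace

/-- Highest weight vectors: killed by the derivative, of a given weight. -/
def Spin.IsHW {ι : Type*} [Fintype ι] (s : Spin ι) (w : ℝ) (v : ι → ℝ) : Prop :=
  s.E.mulVec v = 0 ∧ s.Z.mulVec v = w • v

end Vale.Agent.P359
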