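import Vale.Agent.P359.Defs

/-!
P359: the kernel of the pseudopotential Hamiltonian at filling one third is the Laughlin line.
-/

noncomputable section

namespace Vale.Agent.P359

namespace Kernel

open Finset MvPolynomial

variable {N Q : ℕ}

/-- Replace two coordinates. -/
def upd (i j : Fin N) (x : Fin N → Orb Q) (a b : Orb Q) : Fin N → Orb Q :=
  Function.update (Function.update x i a) j b

/-- The exponent vector of a configuration. -/
def expo (x : Fin N → Orb Q) : Fin N →₀ ℕ := Finsupp.equivFunOnFinite.symm fun k => (x k : ℕ)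

/-- The polynomial with given coefficients. -/
def poly (c : (Fin N → Orb Q) → ℝ) : MvPolynomial (Fin N) ℝ := ∑ x, monomial (expo x) (c x)

/-- Identify variable `j` with variable `i`. -/
def mrg (i j k : Fin N) : Fin N := if k = j then i else k

/-- The difference of two variables. -/
def dif (i j : Fin N) : MvPolynomial (Fin N) ℝ := X i - X j

/-- The weight of a configuration. -/
def wgtQ (x : Fin N → Orb Q) : ℝ := Real.sqrt (∏ k, (Q.choose (x k) : ℝ))

/-- The contraction with a pair vector. -/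
def contr (i j : Fin N) (ψ : (Fin N → Orb Q) → ℝ) (x : Fin N → Orb Q) (M : Pair Q) : ℝ :=
  ∑ a, ∑ b, pairVec Q M a b * ψ (upd i j x a b)

lemma expo_apply (x : Fin N → Orb Q) (k : Fin N) : expo x k = (x k : ℕ) := rfl

lemma expo_injective : Function.Injective (expo (N := N) (Q := Q)) := by
  intro x y h
  funext k
  exact Fin.ext (by rw [← expo_apply x k, ← expo_apply y k, h])

lemma upd_left {i j : Fin N} (hij : i ≠ j) (x : Fin N → Orb Q) (a b : Orb Q) :
    upd i j x a b i = a := by
  simp [upd, Function.update_of_ne hij]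

lemma upd_right (i j : Fin N) (x : Fin N → Orb Q) (a b : Orb Q) : upd i j x a b j = b := by
  simp [upd]

lemma upd_other {i j k : Fin N} (hi : k ≠ i) (hj : k ≠ j) (x : Fin N → Orb Q) (a b : Orb Q) :
    upd i j x a b k = x k := by
  simp [upd, Function.update_of_ne hi, Function.update_of_ne hj]

lemma upd_self (i j : Fin N) (x : Fin N → Orb Q) : upd i j x (x i) (x j) = x := by
  simp [upd]

lemma upd_upd {i j : Fin N} (hij : i ≠ j) (x : Fin N → Orb Q) (a b a' b' : Orb Q) :
    upd i j (upd i j x a b) a' b' = upd i j x a' b' := by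
  funext k
  rcases eq_or_ne k j with rfl | hj
  · rw [upd_right, upd_right]
  rcases eq_or_ne k i with rfl | hi
  · rw [upd_left hij, upd_left hij]
  rw [upd_other hi hj, upd_other hi hj, upd_other hi hj]

lemma sum_update (i : Fin N) (g : (Fin N → Orb Q) → ℝ) :
    ∑ x, ∑ a, g (Function.update x i a) = (Fintype.card (Orb Q) : ℝ) * ∑ x, g x := by
  classical
  let e : (Fin N → Orb Q) × Orb Q ≃ (Fin N → Orb Q) × Orb Q :=
    { toFun := fun p => (Function.update p.1 i p.2, p.1 i)
      invFun := fun p => (Function.update p.1 i p.2, p.1 i)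
      left_inv := fun p => by simp
      right_inv := fun p => by simp }
  rw [← Fintype.sum_prod_type' (f := fun x a => g (Function.update x i a))]
  rw [show (fun p : (Fin N → Orb Q) × Orb Q => g (Function.update p.1 i p.2))
      = fun p => (fun q : (Fin N → Orb Q) × Orb Q => g q.1) (e p) from rfl,
    e.sum_comp (fun q => g q.1), Fintype.sum_prod_type]
  simp only [Finset.sum_const, Finset.card_univ, nsmul_eq_mul]
  rw [← Finset.mul_sum]

lemma sum_upd (i j : Fin N) (g : (Fin N → Orb Q) → ℝ) :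
    ∑ x, ∑ a, ∑ b, g (upd i j x a b)
      = (Fintype.card (Orb Q) : ℝ) ^ 2 * ∑ x, g x := by
  unfold upd
  rw [sum_update i (fun y => ∑ b, g (Function.update y j b)), sum_update j g, sq, mul_assoc]

lemma pairVec_contr {i j : Fin N} (hij : i ≠ j) (ψ : (Fin N → Orb Q) → ℝ) :
    ip ψ (pairOp Q i j ψ) * (Fintype.card (Orb Q) : ℝ) ^ 2
      = ∑ x, ∑ M, contr i j ψ x M ^ 2 := by
  have hop : ∀ x, pairOp Q i j ψ x = ∑ M, pairVec Q M (x i) (x j) * contr i j ψ x M := fun x => rfl
  unfold ip
  rw [mul_comm, ← sum_upd i j]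
  refine Finset.sum_congr rfl fun x _ => ?_
  simp only [hop, upd_left hij, upd_right, Finset.mul_sum]
  have hc : ∀ a b M, contr i j ψ (upd i j x a b) M = contr i j ψ x M := by
    intro a b M
    simp only [contr, upd_upd hij]
  simp only [hc]
  rw [Finset.sum_congr rfl fun a _ => Finset.sum_comm, Finset.sum_comm]
  refine Finset.sum_congr rfl fun M _ => ?_
  rw [sq, show contr i j ψ x M * contr i j ψ x M
    = (∑ a, ∑ b, pairVec Q M a b * ψ (upd i j x a b)) * contr i j ψ x M from rfl, Finset.sum_mul]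
  refine Finset.sum_congr rfl fun a _ => ?_
  rw [Finset.sum_mul]
  refine Finset.sum_congr rfl fun b _ => ?_
  ring

lemma contr_eq_zero_of_ham {ψ : (Fin N → Orb Q) → ℝ} (h : ham N Q ψ = 0) {i j : Fin N}
    (hij : i < j) (x : Fin N → Orb Q) (M : Pair Q) : contr i j ψ x M = 0 := by
  have hnn : ∀ i j : Fin N, i < j → 0 ≤ ip ψ (pairOp Q i j ψ) := by
    intro i j hij
    have := pairVec_contr hij.ne ψ
    have h2 : 0 ≤ ∑ x, ∑ M, contr i j ψ x M ^ 2 :=
      Finset.sum_nonneg fun _ _ => Finset.sum_nonneg fun _ _ => sq_nonneg _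
    have h3 : (0 : ℝ) < (Fintype.card (Orb Q) : ℝ) ^ 2 := by positivity
    rw [← this] at h2
    exact nonneg_of_mul_nonneg_left h2 h3
  have hsum : ∑ i, ∑ j, (if i < j then ip ψ (pairOp Q i j ψ) else 0) = 0 := by
    have h0 : ip ψ (ham N Q ψ) = 0 := by rw [h]; simp [ip]
    refine Eq.trans ?_ h0
    unfold ip ham
    simp only [Finset.mul_sum, mul_ite, mul_zero]
    symm
    rw [Finset.sum_comm]
    refine Finset.sum_congr rfl fun i _ => ?_
    rw [Finset.sum_comm]
    refine Finset.sum_congr rfl fun j _ => ?_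
    split_ifs <;> simp
  have hi0 := (Finset.sum_eq_zero_iff_of_nonneg fun i _ => Finset.sum_nonneg fun j _ => by
    split_ifs with hc
    · exact hnn i j hc
    · exact le_rfl).1 hsum i (Finset.mem_univ _)
  have hj0 := (Finset.sum_eq_zero_iff_of_nonneg fun j _ => by
    split_ifs with hc
    · exact hnn i j hc
    · exact le_rfl).1 hi0 j (Finset.mem_univ _)
  rw [if_pos hij] at hj0
  have h1 := pairVec_contr hij.ne ψ
  rw [hj0, zero_mul] at h1
  have h2 := (Finset.sum_eq_zero_iff_of_nonneg fun x _ => Finset.sum_nonneg fun M _ =>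
    sq_nonneg (contr i j ψ x M)).1 h1.symm x (Finset.mem_univ _)
  exact pow_eq_zero_iff two_ne_zero |>.1
    ((Finset.sum_eq_zero_iff_of_nonneg fun M _ => sq_nonneg (contr i j ψ x M)).1 h2 M
      (Finset.mem_univ _))

/-- The pair condition on coefficients. -/
def Cond (i j : Fin N) (c : (Fin N → Orb Q) → ℝ) : Prop :=
  ∀ (x : Fin N → Orb Q) (s : ℕ), ∑ a : Orb Q, ∑ b : Orb Q,
    (if (a : ℕ) + b = s then ((a : ℕ) - (b : ℕ) : ℝ) * c (upd i j x a b) else 0) = 0

lemma choose_pos' (a : Orb Q) : (0 : ℝ) < (Q.choose a : ℝ) :=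
  Nat.cast_pos.2 (Nat.choose_pos (Nat.lt_succ_iff.1 a.isLt))

lemma wgtQ_pos (x : Fin N → Orb Q) : 0 < wgtQ x :=
  Real.sqrt_pos.2 (Finset.prod_pos fun k _ => choose_pos' (x k))

lemma exists_rest {i j : Fin N} (hij : i ≠ j) (x : Fin N → Orb Q) :
    ∃ R : ℝ, 0 < R ∧ ∀ a b, wgtQ (upd i j x a b)
      = R * Real.sqrt ((Q.choose a : ℝ) * (Q.choose b : ℝ)) := by
  classical
  refine ⟨Real.sqrt (∏ k ∈ (univ.erase i).erase j, (Q.choose (x k) : ℝ)),
    Real.sqrt_pos.2 (Finset.prod_pos fun k _ => choose_pos' (x k)), fun a b => ?_⟩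
  have hR : (0 : ℝ) ≤ ∏ k ∈ (univ.erase i).erase j, (Q.choose (x k) : ℝ) :=
    Finset.prod_nonneg fun k _ => Nat.cast_nonneg _
  rw [← Real.sqrt_mul hR, wgtQ, ← Finset.mul_prod_erase univ _ (Finset.mem_univ i),
    ← Finset.mul_prod_erase (univ.erase i) _ (Finset.mem_erase.2 ⟨hij.symm, Finset.mem_univ j⟩),
    upd_left hij, upd_right]
  congr 1
  rw [Finset.prod_congr rfl (g := fun k => (Q.choose (x k) : ℝ)) fun k hk => by
    obtain ⟨hj, hk'⟩ := Finset.mem_erase.1 hk
    rw [upd_other (Finset.mem_erase.1 hk').1 hj]]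
  ring

lemma pair_norm_pos (M : Pair Q) :
    0 < Real.sqrt (∑ a, ∑ b, pairRaw Q M a b ^ 2) := by
  have hM := M.isLt
  obtain ⟨a, b, hab, hne⟩ : ∃ a b : Orb Q, (a : ℕ) + b = (M : ℕ) + 1 ∧ (a : ℕ) ≠ b := by
    rcases le_or_gt ((M : ℕ) + 1) Q with h | h
    · exact ⟨⟨(M : ℕ) + 1, by omega⟩, ⟨0, by omega⟩, by simp, by simp⟩
    · exact ⟨⟨Q, by omega⟩, ⟨(M : ℕ) + 1 - Q, by omega⟩, by simp; omega, by simp; omega⟩
  refine Real.sqrt_pos.2 (Finset.sum_pos' (fun _ _ => Finset.sum_nonneg fun _ _ => sq_nonneg _)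
    ⟨a, Finset.mem_univ _, Finset.sum_pos' (fun _ _ => sq_nonneg _) ⟨b, Finset.mem_univ _, ?_⟩⟩)
  have h1 : ((a : ℕ) - (b : ℕ) : ℝ) ≠ 0 := sub_ne_zero.2 (by exact_mod_cast hne)
  have h2 : 0 < Real.sqrt ((Q.choose a : ℝ) * (Q.choose b : ℝ)) :=
    Real.sqrt_pos.2 (mul_pos (choose_pos' a) (choose_pos' b))
  rw [pairRaw, if_pos hab]
  positivity

lemma contr_eq {i j : Fin N} (hij : i ≠ j) (ψ : (Fin N → Orb Q) → ℝ) (x : Fin N → Orb Q)
    (M : Pair Q) : ∃ r : ℝ, 0 < r ∧ r * contr i j ψ x M = ∑ a : Orb Q, ∑ b : Orb Q,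
      (if (a : ℕ) + b = (M : ℕ) + 1 then
        ((a : ℕ) - (b : ℕ) : ℝ) * (ψ (upd i j x a b) * wgtQ (upd i j x a b)) else 0) := by
  obtain ⟨R, hR, hw⟩ := exists_rest hij x
  have hn := pair_norm_pos M
  refine ⟨R * Real.sqrt (∑ a, ∑ b, pairRaw Q M a b ^ 2), mul_pos hR hn, ?_⟩
  unfold contr pairVec
  rw [Finset.mul_sum]
  refine Finset.sum_congr rfl fun a _ => ?_
  rw [Finset.mul_sum]
  refine Finset.sum_congr rfl fun b _ => ?_
  rw [hw]
  generalize Real.sqrt (∑ a, ∑ b, pairRaw Q M a b ^ 2) = n at hn ⊢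
  unfold pairRaw
  split_ifs
  · field_simp
  · simp

lemma cond_of_contr {i j : Fin N} (hij : i ≠ j) (ψ : (Fin N → Orb Q) → ℝ)
    (h : ∀ x M, contr i j ψ x M = 0) : Cond i j (fun y => ψ y * wgtQ y) := by
  intro x s
  by_cases hs : 1 ≤ s ∧ s < 2 * Q
  · obtain ⟨r, -, he⟩ := contr_eq hij ψ x ⟨s - 1, by omega⟩
    rw [h, mul_zero] at he
    rw [show s = ((⟨s - 1, by omega⟩ : Pair Q) : ℕ) + 1 by simp; omega]
    exact he.symm
  · refine Finset.sum_eq_zero fun a _ => Finset.sum_eq_zero fun b _ => ?_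
    split_ifs with hab
    · have ha := a.isLt
      have hb := b.isLt
      have : (a : ℕ) = b := by omega
      rw [this, sub_self, zero_mul]
    · rfl

lemma contr_zero_of_cond {i j : Fin N} (hij : i ≠ j) (ψ : (Fin N → Orb Q) → ℝ)
    (h : Cond i j fun y => ψ y * wgtQ y) (x : Fin N → Orb Q) (M : Pair Q) :
    contr i j ψ x M = 0 := by
  obtain ⟨r, hr, he⟩ := contr_eq hij ψ x M
  rw [h x ((M : ℕ) + 1)] at he
  exact (mul_eq_zero.1 he).resolve_left hr.ne'

/-- The Euler difference operator. -/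
def eul (i j : Fin N) (f : MvPolynomial (Fin N) ℝ) : MvPolynomial (Fin N) ℝ :=
  X i * pderiv i f - X j * pderiv j f

lemma eul_poly (i j : Fin N) (c : (Fin N → Orb Q) → ℝ) :
    eul i j (poly c) = ∑ x, monomial (expo x) (((x i : ℕ) - (x j : ℕ) : ℝ) * c x) := by
  unfold eul poly
  rw [map_sum, map_sum, Finset.mul_sum, Finset.mul_sum, ← Finset.sum_sub_distrib]
  refine Finset.sum_congr rfl fun x _ => ?_
  rw [X_mul_pderiv_monomial, X_mul_pderiv_monomial, smul_monomial, smul_monomial, ← map_sub,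
    expo_apply, expo_apply, nsmul_eq_mul, nsmul_eq_mul, sub_mul]

lemma mrg_expo_apply {i j : Fin N} (hij : i ≠ j) (x : Fin N → Orb Q) (k : Fin N) :
    Finsupp.mapDomain (mrg i j) (expo x) k
      = if k = j then 0 else if k = i then (x i : ℕ) + x j else (x k : ℕ) := by
  classical
  rw [Finsupp.mapDomain, Finsupp.sum_fintype _ _ fun a => Finsupp.single_zero _]
  simp only [Finsupp.finsetSum_apply, Finsupp.single_apply, expo_apply]
  rw [← Finset.sum_filter]
  split_ifs with hj hi
  · refine Finset.sum_eq_zero fun l hl => ?_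
    rw [Finset.mem_filter] at hl
    exfalso
    revert hl
    unfold mrg
    split_ifs with h <;> simp_all
  · subst hi
    rw [show univ.filter (fun l => mrg k j l = k) = {k, j} by
      ext l; unfold mrg; simp only [Finset.mem_filter, Finset.mem_insert, Finset.mem_singleton]
      split_ifs with h <;> simp_all]
    rw [Finset.sum_pair hij]
  · rw [show univ.filter (fun l => mrg i j l = k) = {k} by
      ext l; unfold mrg; simp only [Finset.mem_filter, Finset.mem_univ, true_and, Finset.mem_singleton]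
      split_ifs with h
      · subst h; exact iff_of_false (Ne.symm hi) (Ne.symm hj)
      · exact Iff.rfl]
    rw [Finset.sum_singleton]

lemma mrg_expo_eq_iff {i j : Fin N} (hij : i ≠ j) (x y : Fin N → Orb Q) (s : ℕ) :
    (y = upd i j x (y i) (y j) ∧ (y i : ℕ) + y j = s) ↔
      ∀ k, Finsupp.mapDomain (mrg i j) (expo y) k
        = if k = j then 0 else if k = i then s else (x k : ℕ) := by
  constructor
  · rintro ⟨h1, h2⟩ k
    rw [mrg_expo_apply hij]
    split_ifs with hj hi
    · rfl
    · exact h2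
    · rw [h1, upd_other hi hj]
  · intro h
    refine ⟨?_, ?_⟩
    · funext k
      rcases eq_or_ne k j with rfl | hj
      · rw [upd_right]
      rcases eq_or_ne k i with rfl | hi
      · rw [upd_left hij]
      rw [upd_other hi hj]
      have := h k
      rw [mrg_expo_apply hij, if_neg hj, if_neg hi, if_neg hj, if_neg hi] at this
      exact Fin.ext this
    · have := h i
      rw [mrg_expo_apply hij, if_neg hij, if_pos rfl, if_neg hij, if_pos rfl] at this
      exact this

lemma cond_iff {i j : Fin N} (hij : i ≠ j) (c : (Fin N → Orb Q) → ℝ) :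
    Cond i j c ↔ rename (mrg i j) (eul i j (poly c)) = 0 := by
  classical
  set G := rename (mrg i j) (eul i j (poly c)) with hG
  have hGe : G = ∑ y, monomial (Finsupp.mapDomain (mrg i j) (expo y))
      (((y i : ℕ) - (y j : ℕ) : ℝ) * c y) := by
    rw [hG, eul_poly, map_sum]
    simp only [rename_monomial]
  have key : ∀ (x : Fin N → Orb Q) (s : ℕ),
      coeff (Finsupp.equivFunOnFinite.symm fun k =>
        if k = j then 0 else if k = i then s else (x k : ℕ)) G
      = ∑ a : Orb Q, ∑ b : Orb Q,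
        (if (a : ℕ) + b = s then ((a : ℕ) - (b : ℕ) : ℝ) * c (upd i j x a b) else 0) := by
    intro x s
    rw [hGe, coeff_sum]
    simp only [coeff_monomial, Finsupp.ext_iff, Finsupp.equivFunOnFinite_symm_apply_apply,
      ← mrg_expo_eq_iff hij]
    rw [← Fintype.sum_prod_type' (f := fun a b : Orb Q =>
      if (a : ℕ) + b = s then ((a : ℕ) - (b : ℕ) : ℝ) * c (upd i j x a b) else 0),
      ← Finset.sum_filter, ← Finset.sum_filter]
    refine Finset.sum_nbij' (fun y => (y i, y j)) (fun p => upd i j x p.1 p.2) ?_ ?_ ?_ ?_ ?_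
    · intro y hy
      simp only [Finset.mem_filter, Finset.mem_univ, true_and] at hy ⊢
      exact hy.2
    · intro p hp
      simp only [Finset.mem_filter, Finset.mem_univ, true_and] at hp ⊢
      rw [upd_left hij, upd_right]
      exact ⟨rfl, hp⟩
    · intro y hy
      simp only [Finset.mem_filter, Finset.mem_univ, true_and] at hy
      exact hy.1.symm
    · intro p _
      simp [upd_left hij, upd_right]
    · intro y hy
      simp only [Finset.mem_filter, Finset.mem_univ, true_and] at hy
      rw [← hy.1]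
  constructor
  · intro h
    refine MvPolynomial.ext _ _ fun d => ?_
    rw [coeff_zero]
    by_cases hd : ∃ y : Fin N → Orb Q, Finsupp.mapDomain (mrg i j) (expo y) = d
    · obtain ⟨y, rfl⟩ := hd
      have he : Finsupp.mapDomain (mrg i j) (expo y) = Finsupp.equivFunOnFinite.symm fun k =>
          if k = j then 0 else if k = i then (y i : ℕ) + y j else (y k : ℕ) := by
        ext k; rw [mrg_expo_apply hij]; rfl
      rw [he, key, h y]
    · rw [hGe, coeff_sum]
      refine Finset.sum_eq_zero fun y _ => ?_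
      rw [coeff_monomial, if_neg fun he => hd ⟨y, he⟩]
  · intro h x s
    rw [← key x s, h, coeff_zero]

lemma dif_dvd_sub (i j : Fin N) (f : MvPolynomial (Fin N) ℝ) :
    dif i j ∣ f - rename (mrg i j) f := by
  induction f using MvPolynomial.induction_on with
  | C a => simp
  | add p q hp hq =>
    rw [map_add, show p + q - (rename (mrg i j) p + rename (mrg i j) q)
      = (p - rename (mrg i j) p) + (q - rename (mrg i j) q) by ring]
    exact dvd_add hp hq
  | mul_X p k hp =>
    have hk : dif i j ∣ X k - rename (mrg i j) (X k : MvPolynomial (Fin N) ℝ) := by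
      rw [rename_X]
      unfold mrg
      split_ifs with h
      · subst h; exact ⟨-1, by rw [dif]; ring⟩
      · simp
    rw [map_mul, show p * X k - rename (mrg i j) p * rename (mrg i j) (X k)
      = (p - rename (mrg i j) p) * X k
        + rename (mrg i j) p * (X k - rename (mrg i j) (X k)) by ring]
    exact dvd_add (hp.mul_right _) (hk.mul_left _)

lemma mrg_dif {i j : Fin N} (hij : i ≠ j) : rename (mrg i j) (dif i j) = 0 := by
  simp [dif, mrg, hij]

lemma dif_dvd_iff {i j : Fin N} (hij : i ≠ j) (f : MvPolynomial (Fin N) ℝ) :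
    dif i j ∣ f ↔ rename (mrg i j) f = 0 := by
  constructor
  · rintro ⟨g, rfl⟩; rw [map_mul, mrg_dif hij, zero_mul]
  · intro h; have := dif_dvd_sub i j f; rwa [h, sub_zero] at this

lemma dif_ne_zero {i j : Fin N} (hij : i ≠ j) : dif i j ≠ 0 := by
  intro h
  exact hij (X_injective (sub_eq_zero.1 h))

lemma dif_prime {i j : Fin N} (hij : i ≠ j) : Prime (dif i j) := by
  refine ⟨dif_ne_zero hij, fun hu => ?_, fun a b hab => ?_⟩
  · have := hu.map (rename (mrg i j))
    rw [mrg_dif hij] at this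
    exact not_isUnit_zero this
  · rw [dif_dvd_iff hij, map_mul, mul_eq_zero] at hab
    rcases hab with h | h
    · exact Or.inl ((dif_dvd_iff hij a).2 h)
    · exact Or.inr ((dif_dvd_iff hij b).2 h)

lemma cube_dvd_of_cond {i j : Fin N} (hij : i ≠ j) (c : (Fin N → Orb Q) → ℝ)
    (hswap : rename (Equiv.swap i j) (poly c) = -poly c) (hc : Cond i j c) :
    dif i j ^ 3 ∣ poly c := by
  set f := poly c with hf
  set φ := rename (R := ℝ) (mrg i j) with hφ
  have hms : ∀ p : MvPolynomial (Fin N) ℝ, φ (rename (Equiv.swap i j) p) = φ p := by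
    intro p
    rw [hφ, rename_rename]
    congr 2
    funext k
    unfold mrg
    rcases eq_or_ne k i with rfl | hi
    · simp [hij]
    rcases eq_or_ne k j with rfl | hj
    · simp [hij]
    simp [Equiv.swap_apply_of_ne_of_ne hi hj]
  have hφf : φ f = 0 := by
    have h := congrArg φ hswap
    rw [hms, map_neg] at h
    have h2 : 2 * φ f = 0 := by linear_combination h
    exact (mul_eq_zero.1 h2).resolve_left two_ne_zero
  obtain ⟨g, hg⟩ := (dif_dvd_iff hij f).2 hφf
  have hφX : φ (X i) = X i ∧ φ (X j) = X i := by simp [hφ, mrg, hij]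
  have hg0 : φ g = 0 := by
    have h := (cond_iff hij c).1 hc
    rw [← hf, hg] at h
    unfold eul at h
    rw [pderiv_mul, pderiv_mul] at h
    simp only [dif, map_sub, pderiv_X_self, pderiv_X_of_ne hij, pderiv_X_of_ne hij.symm, map_mul,
      map_add, ← hφ, hφX.1, hφX.2, map_one, map_zero] at h
    have h2 : X i * (2 * φ g) = 0 := by linear_combination h
    rcases mul_eq_zero.1 h2 with h3 | h3
    · exact absurd h3 (X_ne_zero i)
    · exact (mul_eq_zero.1 h3).resolve_left two_ne_zero
  obtain ⟨k, hk⟩ := (dif_dvd_iff hij g).2 hg0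
  have hd : rename (Equiv.swap i j) (dif i j) = -dif i j := by simp [dif]
  have hk0 : φ k = 0 := by
    rw [hg, hk, map_mul, map_mul, hd] at hswap
    have h1 : dif i j * dif i j * (rename (Equiv.swap i j) k + k) = 0 := by
      linear_combination hswap
    have h2 := (mul_eq_zero.1 h1).resolve_left
      (mul_ne_zero (dif_ne_zero hij) (dif_ne_zero hij))
    have h3 := congrArg φ h2
    rw [map_add, hms, map_zero, ← two_mul] at h3
    exact (mul_eq_zero.1 h3).resolve_left two_ne_zero
  obtain ⟨l, hl⟩ := (dif_dvd_iff hij k).2 hk0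
  exact ⟨l, by rw [hg, hk, hl]; ring⟩

lemma eul_cube {i j : Fin N} (hij : i ≠ j) {f : MvPolynomial (Fin N) ℝ} (h : dif i j ^ 3 ∣ f) :
    rename (mrg i j) (eul i j f) = 0 := by
  obtain ⟨g, rfl⟩ := h
  unfold eul
  simp [mrg_dif hij]

lemma expo_comp (σ : Equiv.Perm (Fin N)) (x : Fin N → Orb Q) :
    Finsupp.mapDomain σ (expo (x ∘ σ)) = expo x := by
  ext k
  conv_lhs => rw [← σ.apply_symm_apply k, Finsupp.mapDomain_apply σ.injective]
  simp [expo_apply]

lemma rename_poly (σ : Equiv.Perm (Fin N)) (c : (Fin N → Orb Q) → ℝ)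
    (h : ∀ x, c (x ∘ σ) = ((Equiv.Perm.sign σ : ℤ) : ℝ) * c x) :
    rename σ (poly c) = C (((Equiv.Perm.sign σ : ℤ) : ℝ)) * poly c := by
  unfold poly
  rw [map_sum, Finset.mul_sum]
  let e : (Fin N → Orb Q) ≃ (Fin N → Orb Q) :=
    { toFun := fun x => x ∘ σ
      invFun := fun x => x ∘ σ.symm
      left_inv := fun x => by funext k; simp
      right_inv := fun x => by funext k; simp }
  rw [← e.sum_comp]
  refine Finset.sum_congr rfl fun x _ => ?_
  rw [show e x = x ∘ σ from rfl, rename_monomial, expo_comp, h, C_mul_monomial]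

lemma laughlinPoly_eq :
    laughlinPoly N = (Matrix.vandermonde fun k : Fin N => -(X k : MvPolynomial (Fin N) ℝ)).det ^ 3 := by
  rw [Matrix.det_vandermonde, ← Finset.prod_pow]
  unfold laughlinPoly
  refine Finset.prod_congr rfl fun i _ => ?_
  rw [← Finset.prod_pow, ← Finset.prod_filter]
  refine Finset.prod_congr (by ext j; simp) fun j _ => ?_
  ring

lemma rename_laughlinPoly (σ : Equiv.Perm (Fin N)) :
    rename σ (laughlinPoly N) = C (((Equiv.Perm.sign σ : ℤ) : ℝ)) * laughlinPoly N := by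
  rw [laughlinPoly_eq, map_pow, AlgHom.map_det]
  set V := Matrix.vandermonde fun k : Fin N => -(X k : MvPolynomial (Fin N) ℝ) with hV
  have he : (rename (R := ℝ) σ).mapMatrix V = V.submatrix σ id := by
    ext a b
    simp [hV, Matrix.vandermonde_apply]
  rw [he, Matrix.det_permute, mul_pow]
  congr 1
  rcases Int.units_eq_one_or (Equiv.Perm.sign σ) with h | h <;> rw [h] <;> simp <;> ring

lemma degreeOf_dif {i j : Fin N} (hij : i ≠ j) (k : Fin N) :
    degreeOf k (dif i j) = if k = i ∨ k = j then 1 else 0 := by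
  classical
  apply le_antisymm
  · refine (degreeOf_sub_le k _ _).trans ?_
    rw [degreeOf_X, degreeOf_X]
    split_ifs <;> simp_all
  · split_ifs with h
    · have hne : coeff (Finsupp.single k 1) (dif i j) ≠ 0 := by
        rcases h with rfl | rfl <;>
          simp [dif, coeff_sub, coeff_X, Finsupp.single_eq_single_iff, hij, hij.symm]
      rw [degreeOf_eq_sup]
      have := Finset.le_sup (f := fun m : Fin N →₀ ℕ => m k) (mem_support_iff.2 hne)
      simpa using this
    · exact Nat.zero_le _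

lemma laughlinPoly_ne_zero : laughlinPoly N ≠ 0 := by
  unfold laughlinPoly
  refine Finset.prod_ne_zero_iff.2 fun i _ => Finset.prod_ne_zero_iff.2 fun j _ => ?_
  split_ifs with h
  · exact pow_ne_zero 3 (dif_ne_zero h.ne)
  · exact one_ne_zero

lemma degreeOf_laughlinPoly (k : Fin N) : degreeOf k (laughlinPoly N) = 3 * (N - 1) := by
  classical
  have hne : ∀ i j : Fin N,
      (if i < j then (X i - X j : MvPolynomial (Fin N) ℝ) ^ 3 else 1) ≠ 0 := by
    intro i j
    split_ifs with h
    · exact pow_ne_zero 3 (dif_ne_zero h.ne)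
    · exact one_ne_zero
  unfold laughlinPoly
  rw [degreeOf_prod_eq _ _ fun i _ => Finset.prod_ne_zero_iff.2 fun j _ => hne i j]
  simp only [degreeOf_prod_eq _ _ fun j _ => hne _ j]
  have e : ∀ i j : Fin N,
      degreeOf k (if i < j then (X i - X j : MvPolynomial (Fin N) ℝ) ^ 3 else 1)
        = 3 * ((if i = k then (if i < j then 1 else 0) else 0)
          + (if j = k then (if i < j then 1 else 0) else 0)) := by
    intro i j
    by_cases h1 : i < j
    · simp only [if_pos h1]
      rw [show (X i - X j : MvPolynomial (Fin N) ℝ) = dif i j from rfl,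
        degreeOf_pow_eq _ _ _ (dif_ne_zero h1.ne), degreeOf_dif h1.ne]
      rcases eq_or_ne i k with rfl | hi
      · simp [h1.ne']
      rcases eq_or_ne j k with rfl | hj
      · simp [h1.ne]
      simp [hi, hj, hi.symm, hj.symm]
    · simp [h1]
  simp only [e, ← Finset.mul_sum, Finset.sum_add_distrib]
  congr 1
  rw [Finset.sum_eq_single k (fun i _ hi => by simp [hi]) (by simp)]
  simp only [Finset.sum_ite_eq', Finset.mem_univ, if_true]
  rw [← Finset.sum_add_distrib, Finset.sum_congr rfl (g := fun l : Fin N => if l ≠ k then 1 else 0)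
    fun l _ => by
      rcases lt_trichotomy k l with h | h | h
      · simp [h, h.not_gt, h.ne']
      · simp [h]
      · simp [h, h.not_gt, h.ne]]
  rw [Finset.sum_boole, Finset.filter_ne', Finset.card_erase_of_mem (Finset.mem_univ _),
    Finset.card_univ, Fintype.card_fin, Nat.cast_id]

lemma poly_coeff (hQ : Q = 3 * (N - 1)) :
    laughlinPoly N = poly (fun x : Fin N → Orb Q => coeff (expo x) (laughlinPoly N)) := by
  classical
  refine MvPolynomial.ext _ _ fun d => ?_
  unfold poly
  rw [coeff_sum]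
  simp only [coeff_monomial]
  by_cases hd : ∀ k, d k < Q + 1
  · set x : Fin N → Orb Q := fun k => ⟨d k, hd k⟩
    have hx : expo x = d := by ext k; rfl
    rw [Finset.sum_eq_single x (fun y _ hy => if_neg fun he => hy (expo_injective (he.trans hx.symm)))
      (by simp), if_pos hx, hx]
  · push Not at hd
    obtain ⟨k, hk⟩ := hd
    rw [Finset.sum_eq_zero fun y _ => if_neg fun he => by
      rw [← he, expo_apply] at hk; exact absurd (y k).isLt (not_lt.2 hk)]
    by_contra hc
    have h1 := degreeOf_le_iff.1 (degreeOf_laughlinPoly k).le d (mem_support_iff.2 hc)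
    omega

lemma laughlin_mul (x : Fin N → Orb Q) :
    laughlin N Q x * wgtQ x = coeff (expo x) (laughlinPoly N) := by
  unfold laughlin wgtQ
  exact div_mul_cancel₀ _ (wgtQ_pos x).ne'

end Kernel

open Kernel MvPolynomial

variable {N : ℕ}

/-- The Laughlin vector is not zero. -/
theorem laughlin_ne_zero (N : ℕ) :
    ip (laughlin N (3 * (N - 1))) (laughlin N (3 * (N - 1))) ≠ 0 := by
  intro h
  apply laughlinPoly_ne_zero (N := N)
  rw [poly_coeff (N := N) rfl]
  refine Finset.sum_eq_zero fun x _ => ?_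
  have hx : laughlin N (3 * (N - 1)) x = 0 := mul_self_eq_zero.1
    ((Finset.sum_eq_zero_iff_of_nonneg fun y _ => mul_self_nonneg _).1 h x (Finset.mem_univ _))
  simp only [← laughlin_mul, hx, zero_mul, monomial_zero]

/-- The Laughlin vector is antisymmetric. -/
theorem isAnti_laughlin (N : ℕ) : IsAnti (laughlin N (3 * (N - 1))) := by
  intro σ x
  have h := coeff_rename_mapDomain (R := ℝ) σ σ.injective (laughlinPoly N) (expo (x ∘ σ))
  rw [expo_comp, rename_laughlinPoly, coeff_C_mul] at h
  unfold laughlin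
  rw [show (Finsupp.equivFunOnFinite.symm fun i => ((x ∘ σ) i : ℕ)) = expo (x ∘ σ) from rfl, ← h,
    show (∏ i, ((3 * (N - 1)).choose ((x ∘ σ) i) : ℝ)) = ∏ i, ((3 * (N - 1)).choose (x i) : ℝ) from
      Equiv.prod_comp σ fun i => ((3 * (N - 1)).choose (x i) : ℝ), mul_div_assoc]
  rfl

/-- The Laughlin vector is a zero state. -/
theorem ham_laughlin (N : ℕ) : ham N (3 * (N - 1)) (laughlin N (3 * (N - 1))) = 0 := by
  funext x
  refine Finset.sum_eq_zero fun i _ => Finset.sum_eq_zero fun j _ => ?_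
  split_ifs with hij
  · refine Finset.sum_eq_zero fun M _ => mul_eq_zero_of_right _ ?_
    refine contr_zero_of_cond hij.ne _ ?_ x M
    rw [cond_iff hij.ne]
    simp only [laughlin_mul]
    rw [← poly_coeff rfl]
    refine eul_cube hij.ne ?_
    unfold laughlinPoly
    refine (dvd_trans ?_ (Finset.dvd_prod_of_mem _ (Finset.mem_univ j))).trans
      (Finset.dvd_prod_of_mem (fun i => ∏ j, if i < j then (X i - X j) ^ 3 else 1) (Finset.mem_univ i))
    rw [if_pos hij]
    rfl
  · rfl

/-- Every zero state is a multiple of the Laughlin vector. -/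
theorem ker_eq_of_flux {Q : ℕ} (hQ : Q = 3 * (N - 1)) (ψ : (Fin N → Orb Q) → ℝ) (ha : IsAnti ψ)
    (h : ham N Q ψ = 0) : ∃ c : ℝ, ψ = fun x => c * laughlin N Q x := by
  classical
  set c : (Fin N → Orb Q) → ℝ := fun y => ψ y * wgtQ y with hc
  have hanti : ∀ (σ : Equiv.Perm (Fin N)) (x : Fin N → Orb Q),
      c (x ∘ σ) = ((Equiv.Perm.sign σ : ℤ) : ℝ) * c x := by
    intro σ x
    have hw : wgtQ (x ∘ σ) = wgtQ x := by
      unfold wgtQ; congr 1
      exact Equiv.prod_comp σ fun i => (Q.choose (x i) : ℝ)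
    simp only [hc, ha σ x, hw, mul_assoc]
  set s : Finset (Fin N × Fin N) := Finset.univ.filter fun p => p.1 < p.2 with hs
  have hdiv : ∀ p ∈ s, dif p.1 p.2 ^ 3 ∣ poly c := by
    intro p hp
    have hlt : p.1 < p.2 := (Finset.mem_filter.1 hp).2
    refine cube_dvd_of_cond hlt.ne c ?_
      (cond_of_contr hlt.ne ψ fun x M => contr_eq_zero_of_ham h hlt x M)
    rw [rename_poly _ c (hanti _), Equiv.Perm.sign_swap hlt.ne]
    simp
  have hpair : (s : Set (Fin N × Fin N)).Pairwise
      (Function.onFun IsRelPrime fun p => dif p.1 p.2 ^ 3) := by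
    intro p hp q hq hne
    have hp' : p.1 < p.2 := (Finset.mem_filter.1 (Finset.mem_coe.1 hp)).2
    have hq' : q.1 < q.2 := (Finset.mem_filter.1 (Finset.mem_coe.1 hq)).2
    refine IsRelPrime.pow ((dif_prime hp'.ne).irreducible.isRelPrime_iff_not_dvd.2 fun hd => ?_)
    rw [dif_dvd_iff hp'.ne, dif, map_sub, rename_X, rename_X, sub_eq_zero] at hd
    have h2 := X_injective hd
    unfold mrg at h2
    split_ifs at h2 with h3 h4 h4
    · exact absurd (h3.trans h4.symm) hq'.ne
    · rw [h3] at hq'; rw [← h2] at hq'; exact absurd hq' hp'.not_gt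
    · exact hne (Prod.ext h2.symm h4.symm)
    · exact absurd h2 hq'.ne
  have hP : laughlinPoly N = ∏ p ∈ s, dif p.1 p.2 ^ 3 := by
    rw [hs, Finset.prod_filter, Fintype.prod_prod_type]
    rfl
  obtain ⟨q, hq⟩ : laughlinPoly N ∣ poly c := hP ▸ Finset.prod_dvd_of_isRelPrime hpair hdiv
  have hdeg : ∀ k, degreeOf k (poly c) ≤ Q := by
    intro k
    refine degreeOf_le_iff.2 fun m hm => ?_
    by_contra hk
    push Not at hk
    apply mem_support_iff.1 hm
    unfold poly
    rw [coeff_sum]
    refine Finset.sum_eq_zero fun y _ => ?_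
    rw [coeff_monomial, if_neg fun he => ?_]
    rw [← he, expo_apply] at hk
    have := (y k).isLt
    omega
  obtain ⟨a, ha'⟩ : ∃ a : ℝ, q = C a := by
    rcases eq_or_ne q 0 with rfl | hq0
    · exact ⟨0, C_0.symm⟩
    refine ⟨coeff 0 q, MvPolynomial.ext _ _ fun m => ?_⟩
    rw [coeff_C]
    split_ifs with hm
    · rw [← hm]
    · by_contra hc'
      apply hm
      ext k
      have h1 := degreeOf_mul_eq (n := k) (laughlinPoly_ne_zero (N := N)) hq0
      rw [← hq, degreeOf_laughlinPoly, ← hQ] at h1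
      have h2 := hdeg k
      have h3 := degreeOf_le_iff.1 (le_refl (degreeOf k q)) m (mem_support_iff.2 hc')
      simp only [Finsupp.coe_zero, Pi.zero_apply]
      omega
  refine ⟨a, funext fun x => ?_⟩
  have hx : coeff (expo x) (poly c) = c x := by
    unfold poly
    rw [coeff_sum, Finset.sum_eq_single x (fun y _ hy => by
      rw [coeff_monomial, if_neg fun he => hy (expo_injective he)]) (by simp), coeff_monomial,
      if_pos rfl]
  rw [hq, ha', mul_comm, coeff_C_mul, ← laughlin_mul, hc] at hx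
  apply mul_right_cancel₀ (wgtQ_pos x).ne'
  linear_combination -hx

/-- Every zero state at filling one third is a multiple of the Laughlin vector. -/
theorem ker_eq (_hN : 2 ≤ N) (ψ : (Fin N → Orb (3 * (N - 1))) → ℝ) (ha : IsAnti ψ)
    (h : ham N (3 * (N - 1)) ψ = 0) :
    ∃ c : ℝ, ψ = fun x => c * laughlin N (3 * (N - 1)) x :=
  ker_eq_of_flux rfl ψ ha h

end Vale.Agent.P359
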