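import Vale.Agent.P359.Core
import Vale.Agent.P359.Kernel

/-!
# P359: the pair inequality gives the uniform gap inequality at filling one third
-/

namespace Vale.Agent.P359

/-- A pair inequality at `Q = 3 (N - 1)` gives `H ≥ γ (1 - P_L)` for `N` fermions. -/
theorem gapBound_of_pairBound {N : ℕ} {γ : ℝ} (hN : 2 ≤ N) (hγ : 0 < γ)
    (hP : PairBound (3 * (N - 1)) γ) : GapBound γ N :=
  gapBound_of hN hγ hP (laughlin_ne_zero N) (isAnti_laughlin N)
    (fun ψ ha h => ker_eq hN ψ ha h)

end Vale.Agent.P359
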