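import Vale.Agent.P359.Point.Uniform
import Vale.Agent.P359.Point.OmegaCost

/-!
# P359: the gap at filling one third from the remaining certificate steps
-/

namespace Vale.Agent.P359

open Filter

/-- The gap from the sector and two-body statements, uniform in all particle numbers. -/
theorem gap_of_goals (hL : Point.SectorGoal) (hC : Point.TwoGoal) :
    ∃ δ : ℝ, 0 < δ ∧ ∀ N : ℕ, 2 ≤ N →
      GapBound δ N ∧ ham N (3 * (N - 1)) (laughlin N (3 * (N - 1))) = 0 := by
  obtain ⟨δ, hδ, h⟩ := Point.uniform_gap (by norm_num)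
    (Point.eventually_pairBound hL oneGoal hC Point.omegaCost)
  exact ⟨δ, hδ, fun N hN => ⟨h N hN, ham_laughlin N⟩⟩

end Vale.Agent.P359
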